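import Crest.Agent.H0175.Approx

set_option autoImplicit false

namespace Crest.Agent.H0175

open MeasureTheory Filter Topology Set Crest.AnalysisR.OT
open scoped ENNReal

/-- label triples carrying the optimal plan -/
def good (i j k : Fin 5) : Prop :=
  (i, j, k) ∈ ([(0, 1, 2), (0, 2, 1), (1, 0, 2), (1, 2, 0), (2, 0, 1), (2, 1, 0),
    (0, 3, 4), (0, 4, 3), (3, 0, 4), (3, 4, 0), (4, 0, 3), (4, 3, 0)] : List (Fin 5 × Fin 5 × Fin 5))

instance (i j k : Fin 5) : Decidable (good i j k) := by unfold good; infer_instance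

lemma good_count : ∀ i j k : Fin 5, good i j k →
    (if i = 1 ∨ i = 2 then 1 else 0) + (if j = 1 ∨ j = 2 then 1 else 0) +
      (if k = 1 ∨ k = 2 then 1 else 0) =
    2 * (if i = 1 ∨ i = 2 then 1 else 0) + 2 * (if i = 0 ∧ (j = 1 ∨ j = 2) then 1 else 0 : ℕ) := by
  decide

variable {X : Type*} [MeasurableSpace X]

lemma lintegral_pot {μ : Measure X} {π : Measure (X × X × X)} (hπ : IsCoupling₃ μ π)
    {u : X → ℝ≥0∞} (hu : Measurable u) :
    ∫⁻ p, u p.1 + u p.2.1 + u p.2.2 ∂π = 3 * ∫⁻ x, u x ∂μ := by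
  have m1 : Measurable fun p : X × X × X => p.1 := by fun_prop
  have m2 : Measurable fun p : X × X × X => p.2.1 := by fun_prop
  have m3 : Measurable fun p : X × X × X => p.2.2 := by fun_prop
  rw [lintegral_add_right _ (hu.fun_comp m3), lintegral_add_right _ (hu.fun_comp m2),
    ← lintegral_map hu m1, ← lintegral_map hu m2, ← lintegral_map hu m3, hπ.1, hπ.2.1, hπ.2.2]
  ring

lemma ae_mem_of_coupling {μ : Measure X} {π : Measure (X × X × X)} (hπ : IsCoupling₃ μ π)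
    {U : Set X} (hU : ∀ᵐ x ∂μ, x ∈ U) : ∀ᵐ p ∂π, p.1 ∈ U ∧ p.2.1 ∈ U ∧ p.2.2 ∈ U := by
  have h1 := hU
  have h2 := hU
  have h3 := hU
  rw [← hπ.1] at h1
  rw [← hπ.2.1] at h2
  rw [← hπ.2.2] at h3
  filter_upwards [ae_of_ae_map (by fun_prop) h1, ae_of_ae_map (by fun_prop) h2,
    ae_of_ae_map (by fun_prop) h3] with p a b c using ⟨a, b, c⟩

lemma pot_le {μ : Measure X} {π : Measure (X × X × X)} (hπ : IsCoupling₃ μ π)
    {U : Set X} (hU : ∀ᵐ x ∂μ, x ∈ U) {u : X → ℝ≥0∞} (hu : Measurable u) {c : X × X × X → ℝ≥0∞}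
    (hle : ∀ x ∈ U, ∀ y ∈ U, ∀ z ∈ U, u x + u y + u z ≤ c (x, y, z)) :
    3 * ∫⁻ x, u x ∂μ ≤ ∫⁻ p, c p ∂π := by
  rw [← lintegral_pot hπ hu]
  refine lintegral_mono_ae ?_
  filter_upwards [ae_mem_of_coupling hπ hU] with p hp using hle _ hp.1 _ hp.2.1 _ hp.2.2

lemma pot_lt {μ : Measure X} [IsFiniteMeasure μ]
    {U : Set X} (hU : ∀ᵐ x ∂μ, x ∈ U) {u : X → ℝ≥0∞} (hu : Measurable u) {c : X × X × X → ℝ≥0∞}
    (hc : Measurable c) (hfin : ∫⁻ x, u x ∂μ ≠ ⊤)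
    (hle : ∀ x ∈ U, ∀ y ∈ U, ∀ z ∈ U, u x + u y + u z ≤ c (x, y, z))
    {l : X → Fin 5} (hl : Measurable l) {φ : X → X} (hφ : Measurable φ)
    (heq : ∀ x ∈ U, ∀ y ∈ U, ∀ z ∈ U, u x + u y + u z = c (x, y, z) →
      φ x = φ y ∧ φ x = φ z ∧ good (l x) (l y) (l z))
    (hid : ∀ x ∈ U, l x = 0 → φ x = x)
    (hAD : ∀ S, MeasurableSet S → μ {x | (l x = 1 ∨ l x = 2) ∧ φ x ∈ S} = μ {x | l x = 0 ∧ φ x ∈ S})
    (hA : μ {x | l x = 0} ≠ 0) {T₂ T₃ : X → X} (h₂ : Measurable T₂) (h₃ : Measurable T₃)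
    (e₂ : μ.map T₂ = μ) (e₃ : μ.map T₃ = μ) :
    3 * ∫⁻ x, u x ∂μ < ∫⁻ x, c (x, T₂ x, T₃ x) ∂μ := by
  classical
  have a₂ : ∀ᵐ x ∂μ, T₂ x ∈ U := ae_of_ae_map h₂.aemeasurable (e₂.symm ▸ hU)
  have a₃ : ∀ᵐ x ∂μ, T₃ x ∈ U := ae_of_ae_map h₃.aemeasurable (e₃.symm ▸ hU)
  have sum3 : ∀ v : X → ℝ≥0∞, Measurable v →
      ∫⁻ x, v x + v (T₂ x) + v (T₃ x) ∂μ = 3 * ∫⁻ x, v x ∂μ := fun v hv => by
    rw [lintegral_add_right _ (hv.fun_comp h₃), lintegral_add_right _ (hv.fun_comp h₂),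
      ← lintegral_map hv h₂, ← lintegral_map hv h₃, e₂, e₃]
    ring
  by_contra hcon
  push Not at hcon
  have hae : (fun x => u x + u (T₂ x) + u (T₃ x)) =ᵐ[μ] fun x => c (x, T₂ x, T₃ x) := by
    refine ae_eq_of_ae_le_of_lintegral_le ?_ ?_ (by fun_prop) (by rwa [sum3 u hu])
    · filter_upwards [hU, a₂, a₃] with x h1 h2 h3 using hle _ h1 _ h2 _ h3
    · rw [sum3 u hu]; exact ENNReal.mul_ne_top (by simp) hfin
  have mD : MeasurableSet {x | l x = 1 ∨ l x = 2} :=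
    hl (MeasurableSet.of_discrete (s := {i | i = 1 ∨ i = 2}))
  have mA : MeasurableSet {x | l x = 0} := hl (MeasurableSet.of_discrete (s := {i | i = 0}))
  have key : ∀ S, MeasurableSet S → μ ({x | l x = 0} ∩ S) =
      2 * μ ({x | l x = 0} ∩ S ∩ T₂ ⁻¹' {x | l x = 1 ∨ l x = 2}) := by
    intro S hS
    set W := {x | (l x = 1 ∨ l x = 2) ∧ φ x ∈ S} with hW
    have mW : MeasurableSet W := mD.inter (hφ hS)
    set V := {x | l x = 0} ∩ S ∩ T₂ ⁻¹' {x | l x = 1 ∨ l x = 2} with hV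
    have mV : MeasurableSet V := (mA.inter hS).inter (h₂ mD)
    have h1 := sum3 (W.indicator 1) (measurable_one.indicator mW)
    have h2 : ∫⁻ x, W.indicator 1 x + W.indicator 1 (T₂ x) + W.indicator 1 (T₃ x) ∂μ =
        ∫⁻ x, 2 * W.indicator 1 x + 2 * V.indicator 1 x ∂μ := by
      refine lintegral_congr_ae ?_
      filter_upwards [hU, a₂, a₃, hae] with x g1 g2 g3 g4
      obtain ⟨p1, p2, p3⟩ := heq _ g1 _ g2 _ g3 g4
      by_cases hx : φ x ∈ S
      · have := congrArg (Nat.cast : ℕ → ℝ≥0∞) (good_count _ _ _ p3)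
        have q : x ∈ V ↔ l x = 0 ∧ (l (T₂ x) = 1 ∨ l (T₂ x) = 2) :=
          ⟨fun h => ⟨h.1.1, h.2⟩, fun h => ⟨⟨h.1, hid x g1 h.1 ▸ hx⟩, h.2⟩⟩
        simp only [indicator_apply, q, hW, mem_ofPred_eq, ← p1, ← p2, hx, and_true, Pi.one_apply]
        simpa using this
      · have q : x ∉ V := fun h => hx (by rw [hid x g1 h.1.1]; exact h.1.2)
        simp [q, hW, ← p1, ← p2, hx]
    rw [h2, lintegral_add_left ((measurable_one.indicator mW).const_mul _),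
      lintegral_const_mul _ (measurable_one.indicator mW),
      lintegral_const_mul _ (measurable_one.indicator mV), lintegral_indicator_one mW,
      lintegral_indicator_one mV, show (3 : ℝ≥0∞) * μ W = 2 * μ W + μ W by ring] at h1
    have h3 := (ENNReal.add_right_inj (ENNReal.mul_ne_top (by simp) (measure_ne_top _ _))).1 h1
    rw [h3, hW, hAD S hS]
    refine measure_congr ?_
    filter_upwards [hU] with x hx
    exact propext ⟨fun h => ⟨h.1, by rw [hid x hx h.1]; exact h.2⟩,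
      fun h => ⟨h.1, hid x hx h.1 ▸ h.2⟩⟩
  set P := T₂ ⁻¹' {x | l x = 1 ∨ l x = 2} with hP
  have k1 := key P (h₂ mD)
  have k2 := key Pᶜ (h₂ mD).compl
  rw [inter_assoc, inter_self, two_mul] at k1
  rw [inter_assoc, compl_inter_self, inter_empty, measure_empty, mul_zero] at k2
  have k3 : μ ({x | l x = 0} ∩ P) = 0 := by
    have := (ENNReal.add_right_inj (measure_ne_top μ ({x | l x = 0} ∩ P))).1
      ((add_zero _).trans k1)
    exact this.symm
  apply hA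
  rw [← inter_union_compl {x | l x = 0} P]
  exact measure_union_null k3 k2

end Crest.Agent.H0175
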