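import Mathlib
import Crest.Prelude.Def_MultiMarginal

set_option autoImplicit false

namespace Crest.Agent.H0175

open MeasureTheory Filter Topology Set ProbabilityTheory
open scoped ENNReal unitInterval

lemma continuous_cdf (m : Measure ℝ) [IsProbabilityMeasure m] [NullSingletonClass m] : Continuous (cdf m) := by
  rw [continuous_iff_continuousAt]
  intro x
  have hm := monotone_cdf m
  rw [hm.continuousAt_iff_leftLim_eq_rightLim, (cdf m).rightLim_eq]
  have h1 := (cdf m).measure_singleton x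
  rw [measure_cdf, measure_singleton] at h1
  have h2 : cdf m x - Function.leftLim (cdf m) x ≤ 0 := ENNReal.ofReal_eq_zero.1 h1.symm
  have h3 := hm.leftLim_le (le_refl x)
  linarith

lemma measure_cdf_le (m : Measure ℝ) [IsProbabilityMeasure m] [NullSingletonClass m] {u : ℝ} (h0 : 0 < u)
    (h1 : u < 1) : m {x | cdf m x ≤ u} = ENNReal.ofReal u := by
  have hc := continuous_cdf m
  have hm := monotone_cdf m
  obtain ⟨a, ha⟩ := ((tendsto_cdf_atBot m).eventually (gt_mem_nhds h0)).exists
  obtain ⟨b, hb⟩ := ((tendsto_cdf_atTop m).eventually (lt_mem_nhds h1)).exists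
  have hcl : IsClosed {x | cdf m x ≤ u} := isClosed_le hc continuous_const
  have hbd : BddAbove {x | cdf m x ≤ u} := ⟨b, fun x hx => by
    by_contra h
    have := hm (not_le.1 h).le
    exact absurd (this.trans hx) (not_le.2 hb)⟩
  have hne : {x | cdf m x ≤ u}.Nonempty := ⟨a, ha.le⟩
  have hs := hcl.csSup_mem hne hbd
  set x₀ := sSup {x | cdf m x ≤ u} with hx₀
  have e1 : {x | cdf m x ≤ u} = Iic x₀ := by
    ext x
    exact ⟨fun hx => le_csSup hbd hx, fun hx => (hm hx).trans hs⟩
  have e2 : cdf m x₀ = u := by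
    refine le_antisymm hs ?_
    have : ∀ᶠ x in 𝓝[>] x₀, u ≤ cdf m x := by
      filter_upwards [self_mem_nhdsWithin] with x hx
      by_contra h
      have : x ∈ Iic x₀ := e1 ▸ (not_le.1 h).le
      exact absurd (mem_Iic.1 this) (not_le.2 hx)
    exact ge_of_tendsto (hc.continuousAt.tendsto.mono_left nhdsWithin_le_nhds) this
  rw [e1, ← ofReal_cdf, e2]

lemma exists_map_unif {X : Type*} [MeasurableSpace X] [StandardBorelSpace X] (m : Measure X)
    [IsProbabilityMeasure m] [NullSingletonClass m] :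
    ∃ U : X → I, Measurable U ∧ m.map U = volume := by
  have he := measurableEmbedding_embeddingReal X
  set m' := m.map (embeddingReal X) with hm'
  have : IsProbabilityMeasure m' := Measure.isProbabilityMeasure_map he.measurable.aemeasurable
  have : NullSingletonClass m' := ⟨fun x => by
    rw [hm', he.map_apply]
    exact (Set.subsingleton_singleton.preimage he.injective).measure_zero _⟩
  let F : ℝ → I := fun x => ⟨cdf m' x, cdf_nonneg _ _, cdf_le_one _ _⟩
  have hF : Measurable F := (continuous_cdf m').measurable.subtype_mk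
  refine ⟨F ∘ embeddingReal X, hF.comp he.measurable, ?_⟩
  rw [← Measure.map_map hF he.measurable, ← hm']
  have : IsProbabilityMeasure (m'.map F) := Measure.isProbabilityMeasure_map hF.aemeasurable
  refine Measure.ext_of_Iic _ _ fun u => ?_
  rw [Measure.map_apply hF measurableSet_Iic, unitInterval.volume_Iic]
  have e : F ⁻¹' Iic u = {x | cdf m' x ≤ u} := rfl
  rw [e]
  rcases u.2.1.eq_or_lt with h0 | h0
  · rw [← h0, ENNReal.ofReal_zero]
    refine le_antisymm ?_ zero_le
    refine ENNReal.le_of_forall_pos_le_add fun ε hε _ => ?_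
    rcases lt_or_ge (ε : ℝ) 1 with h | h
    · calc m' {x | cdf m' x ≤ 0} ≤ m' {x | cdf m' x ≤ ε} :=
            measure_mono fun x hx => le_trans hx ε.2
        _ = _ := by rw [measure_cdf_le m' (by exact_mod_cast hε) h]; simp
    · exact prob_le_one.trans (by rw [zero_add]; exact_mod_cast h)
  rcases u.2.2.eq_or_lt with h1 | h1
  · rw [h1, ENNReal.ofReal_one, show {x | cdf m' x ≤ 1} = univ from
      eq_univ_of_forall fun x => cdf_le_one _ _, measure_univ]
  · exact measure_cdf_le m' h0 h1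

lemma exists_map_eq {X Y : Type*} [MeasurableSpace X] [StandardBorelSpace X] [MeasurableSpace Y]
    [StandardBorelSpace Y] [Nonempty Y] (m : Measure X) (n : Measure Y) [IsFiniteMeasure m]
    [NullSingletonClass m] (h : m univ = n univ) : ∃ T : X → Y, Measurable T ∧ m.map T = n := by
  rcases eq_or_ne m 0 with h0 | h0
  · refine ⟨fun _ => Classical.arbitrary Y, measurable_const, ?_⟩
    rw [h0] at h ⊢
    rw [Measure.map_zero, eq_comm, ← Measure.measure_univ_eq_zero, ← h]; rfl
  have hc : m univ ≠ 0 := by simpa using h0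
  have hc' : m univ ≠ ⊤ := measure_ne_top _ _
  have : IsProbabilityMeasure ((m univ)⁻¹ • m) := ⟨by simp [ENNReal.inv_mul_cancel hc hc']⟩
  have : IsProbabilityMeasure ((m univ)⁻¹ • n) := ⟨by simp [← h, ENNReal.inv_mul_cancel hc hc']⟩
  have : NullSingletonClass ((m univ)⁻¹ • m) := ⟨fun x => by simp⟩
  obtain ⟨U, hU, hU'⟩ := exists_map_unif ((m univ)⁻¹ • m)
  obtain ⟨f, hf, hf'⟩ := MeasureTheory.Measure.exists_measurable_map_eq ((m univ)⁻¹ • n)
  refine ⟨f ∘ U, hf.comp hU, ?_⟩
  have : ((m univ)⁻¹ • m).map (f ∘ U) = (m univ)⁻¹ • n := by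
    rw [← Measure.map_map hf hU, hU', hf']
  rw [Measure.map_smul] at this
  have h2 := congrArg (fun x => m univ • x) this
  simpa [smul_smul, ENNReal.mul_inv_cancel hc hc'] using h2

lemma exists_near_map {X Y : Type*} [MetricSpace X] [TopologicalSpace.SeparableSpace X]
    [MeasurableSpace X] [BorelSpace X] [StandardBorelSpace X] [MeasurableSpace Y]
    [StandardBorelSpace Y] [Nonempty X] [Nonempty Y] (m : Measure X) [IsFiniteMeasure m] [NullSingletonClass m]
    (π : Measure (X × Y)) (h : π.map Prod.fst = m) {δ : ℝ} (hδ : 0 < δ) :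
    ∃ S : X → X × Y, Measurable S ∧ m.map S = π ∧ ∀ᵐ x ∂m, dist (S x).1 x ≤ δ := by
  obtain ⟨A, hA, hb, hd, hU, hdis⟩ := SeparableSpace.exists_measurable_partition_diam_le X hδ
  have hT := fun j => exists_map_eq (m.restrict (A j)) (π.restrict (Prod.fst ⁻¹' A j)) (by
    rw [Measure.restrict_apply_univ, Measure.restrict_apply_univ, ← h,
      Measure.map_apply measurable_fst (hA j)])
  choose T hT hT' using hT
  obtain ⟨S, hS, hS'⟩ := exists_measurable_piecewise A hA T hT fun i j hij => by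
    simp only [(hdis hij).inter_eq]; exact eqOn_empty _ _
  have hmap : ∀ j, (m.restrict (A j)).map S = π.restrict (Prod.fst ⁻¹' A j) := fun j => by
    rw [← hT' j]
    exact Measure.map_congr ((ae_restrict_mem (hA j)).mono fun x hx => hS' j hx)
  refine ⟨S, hS, ?_, ?_⟩
  · have e1 : m = Measure.sum fun j => m.restrict (A j) := by
      rw [← Measure.restrict_iUnion hdis hA, hU, Measure.restrict_univ]
    have e2 : π = Measure.sum fun j => π.restrict (Prod.fst ⁻¹' A j) := by
      rw [← Measure.restrict_iUnion (fun i j hij => (hdis hij).preimage _)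
        (fun j => measurable_fst (hA j)), ← preimage_iUnion, hU, preimage_univ,
        Measure.restrict_univ]
    rw [e1, Measure.map_sum hS.aemeasurable, e2]
    simp only [hmap]
  · rw [← Measure.restrict_univ (μ := m), ← hU, ae_restrict_iUnion_iff]
    intro j
    have h1 : ∀ᵐ p ∂(m.restrict (A j)).map S, p ∈ Prod.fst ⁻¹' A j := by
      rw [hmap]; exact ae_restrict_mem (measurable_fst (hA j))
    filter_upwards [ae_of_ae_map hS.aemeasurable h1, ae_restrict_mem (hA j)] with x hx hx'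
    exact (Metric.dist_le_diam_of_mem (hb j) hx hx').trans (hd j)

open Crest.AnalysisR.OT

lemma continuous_pairCost {E : Type*} [NormedAddCommGroup E] (s : ℝ) :
    Continuous fun p : E × E => pairCost s p.1 p.2 :=
  ENNReal.continuous_rpow_const.comp (ENNReal.continuous_ofReal.comp (by fun_prop))

lemma continuous_tripleCost {E : Type*} [NormedAddCommGroup E] (s : ℝ) :
    Continuous (tripleCost s : E × E × E → ℝ≥0∞) :=
  (((continuous_pairCost s).comp (f := fun p : E × E × E => (p.1, p.2.1)) (by fun_prop)).add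
    ((continuous_pairCost s).comp (f := fun p : E × E × E => (p.1, p.2.2)) (by fun_prop))).add
    ((continuous_pairCost s).comp (f := fun p : E × E × E => (p.2.1, p.2.2)) (by fun_prop))

lemma rpow_neg_anti {s : ℝ} (hs : 0 ≤ s) {a b : ℝ≥0∞} (h : a ≤ b) : b ^ (-s) ≤ a ^ (-s) := by
  rw [ENNReal.rpow_neg, ENNReal.rpow_neg]
  exact ENNReal.inv_le_inv.2 (ENNReal.rpow_le_rpow h hs)

lemma pairCost_near {E : Type*} [NormedAddCommGroup E] {s δ : ℝ} (hs : 0 ≤ s) (hδ : δ ≤ 1 / 2)
    (hδ0 : 0 ≤ δ) {x x' y : E} (h : dist x' x ≤ δ) (h' : 1 / 2 ≤ ‖x' - y‖) :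
    pairCost s x y ≤ ENNReal.ofReal (1 - 2 * δ) ^ (-s) * pairCost s x' y := by
  rw [pairCost, pairCost, ← ENNReal.mul_rpow_of_ne_top ENNReal.ofReal_ne_top ENNReal.ofReal_ne_top,
    ← ENNReal.ofReal_mul (by linarith)]
  refine rpow_neg_anti hs (ENNReal.ofReal_le_ofReal ?_)
  have := dist_triangle x' x y
  rw [dist_eq_norm x' y, dist_eq_norm x y] at this
  nlinarith

lemma approx {E : Type*} [NormedAddCommGroup E] [SecondCountableTopology E] [MeasurableSpace E]
    [BorelSpace E] [StandardBorelSpace E] {s : ℝ} (hs : 0 ≤ s) (μ : Measure E) [IsFiniteMeasure μ]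
    [NullSingletonClass μ] (π : Measure (E × E × E)) (hπ : IsCoupling₃ μ π)
    (hfin : ∫⁻ p, tripleCost s p ∂π < ⊤)
    (hsep : ∀ᵐ p ∂π, 1 / 2 ≤ ‖p.1 - p.2.1‖ ∧ 1 / 2 ≤ ‖p.1 - p.2.2‖) (ε : ℝ≥0∞) (hε : 0 < ε) :
    ∃ T₂ T₃ : E → E, Measurable T₂ ∧ Measurable T₃ ∧ μ.map T₂ = μ ∧ μ.map T₃ = μ ∧
      ∫⁻ x, tripleCost s (x, T₂ x, T₃ x) ∂μ < ∫⁻ p, tripleCost s p ∂π + ε := by
  set C := ∫⁻ p, tripleCost s p ∂π with hC
  have hK : Continuous fun δ : ℝ => C * ENNReal.ofReal (1 - 2 * δ) ^ (-s) :=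
    (ENNReal.continuous_const_mul hfin.ne).comp
      (ENNReal.continuous_rpow_const.comp (ENNReal.continuous_ofReal.comp (by fun_prop)))
  have h1 : ∀ᶠ δ in 𝓝 (0 : ℝ), C * ENNReal.ofReal (1 - 2 * δ) ^ (-s) < C + ε :=
    hK.continuousAt.eventually (gt_mem_nhds (by
      simpa using ENNReal.lt_add_right hfin.ne hε.ne'))
  have h2 : ∀ᶠ δ in 𝓝 (0 : ℝ), δ < 1 / 2 := gt_mem_nhds (by norm_num)
  obtain ⟨δ, ⟨h3, h4⟩, h5⟩ :=
    (((h1.and h2).filter_mono nhdsWithin_le_nhds).and (self_mem_nhdsWithin (s := Ioi 0))).exists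
  obtain ⟨S, hS, hS1, hS2⟩ := exists_near_map μ π hπ.1 h5
  have m2 : Measurable fun p : E × E × E => p.2.1 := by fun_prop
  have m3 : Measurable fun p : E × E × E => p.2.2 := by fun_prop
  refine ⟨_, _, m2.comp hS, m3.comp hS, ?_, ?_, lt_of_le_of_lt ?_ h3⟩
  · rw [← Measure.map_map m2 hS, hS1, hπ.2.1]
  · rw [← Measure.map_map m3 hS, hS1, hπ.2.2]
  have hc := (continuous_tripleCost (E := E) s).measurable
  rw [hC, ← hS1, lintegral_map hc hS, ← lintegral_mul_const _ (f := fun a => tripleCost s (S a)) (hc.comp hS)]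
  rw [← hS1] at hsep
  refine lintegral_mono_ae ?_
  filter_upwards [ae_of_ae_map hS.aemeasurable hsep, hS2] with x hx hx'
  have a1 := pairCost_near hs h4.le (le_of_lt h5) hx' hx.1
  have a2 := pairCost_near hs h4.le (le_of_lt h5) hx' hx.2
  have a3 : 1 ≤ ENNReal.ofReal (1 - 2 * δ) ^ (-s) := by
    have := rpow_neg_anti hs (a := ENNReal.ofReal (1 - 2 * δ)) (b := 1)
      (ENNReal.ofReal_le_one.2 (by have : 0 < δ := h5; linarith))
    simpa using this
  simp only [tripleCost, Function.comp]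
  rw [mul_comm, mul_add, mul_add]
  gcongr
  exact le_mul_of_one_le_left' a3

end Crest.Agent.H0175
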