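import Crest.Agent.H0175.Push

set_option autoImplicit false

namespace Crest.Agent.H0175

open Filter Topology Set
open scoped ContDiff

variable {E : Type*} [NormedAddCommGroup E] [InnerProductSpace ℝ E]

/-- weight -/
noncomputable def wt (σ : ℝ) (x : E) : ℝ := (‖x‖ ^ 2) ^ (-σ)

/-- force field -/
noncomputable def gg (σ : ℝ) (x : E) : E := wt σ x • x

lemma wt_contDiffAt (σ : ℝ) {x : E} (hx : x ≠ 0) : ContDiffAt ℝ ω (wt σ : E → ℝ) x :=
  (contDiff_norm_sq ℝ).contDiffAt.rpow_const_of_ne (by positivity)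

lemma gg_contDiffAt (σ : ℝ) {x : E} (hx : x ≠ 0) : ContDiffAt ℝ ω (gg σ : E → E) x :=
  (wt_contDiffAt σ hx).smul contDiffAt_id

lemma gg_deriv (σ : ℝ) {u : E} (hu : ‖u‖ = 1) {t : ℝ} (ht : t ≠ 0) :
    ∃ L : E →L[ℝ] E, HasFDerivAt (gg σ) L (t • u) ∧
      ∀ v, L v = (t ^ 2) ^ (-σ) • (v - (2 * σ * inner ℝ u v) • u) := by
  have hn : ‖t • u‖ ^ 2 = t ^ 2 := by rw [norm_smul, hu, mul_one, Real.norm_eq_abs, sq_abs]
  have h1 := (hasStrictFDerivAt_norm_sq (t • u)).hasFDerivAt.rpow_const (p := -σ)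
    (Or.inl (by rw [hn]; positivity))
  refine ⟨_, h1.smul (hasFDerivAt_id (t • u)), fun v => ?_⟩
  have h2 : (t ^ 2) ^ (-σ - 1) = (t ^ 2) ^ (-σ) / t ^ 2 := Real.rpow_sub_one (by positivity) _
  simp only [hn, h2, add_apply, smul_apply,
    ContinuousLinearMap.id_apply, ContinuousLinearMap.smulRight_apply, innerSL_apply_apply,
    real_inner_smul_left, smul_eq_mul, smul_smul, smul_sub, nsmul_eq_mul]
  rw [sub_eq_add_neg, ← neg_smul]
  congr 2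
  field_simp
  ring

lemma scal {lam κ p x y z : ℝ} (hκ : 0 < κ) (hκ1 : κ ≤ 1) (hl : lam * κ = 1 + 3 * κ)
    (hp : p = 1 ∨ p < 0) (e1 : lam * x - p * (x - y) - p * (x - z) = 0)
    (e2 : lam * z + p * (x - z) + κ * (p * (y - z)) = 0) (h : x = 0 ∨ y = 0 ∨ z = 0) :
    x = 0 ∧ y = 0 ∧ z = 0 := by
  have hl4 : 4 ≤ lam := by nlinarith
  have hp0 : p ≠ 0 := by rcases hp with h | h <;> [simp [h]; exact h.ne]
  rcases h with rfl | rfl | rfl
  · have h1 : y = -z := by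
      have : p * (y + z) = 0 := by linarith
      rcases mul_eq_zero.1 this with h | h
      · exact absurd h hp0
      · linarith
    subst h1
    have h2 : (lam - p - 2 * κ * p) * z = 0 := by linarith
    have h3 : 0 < lam - p - 2 * κ * p := by rcases hp with h | h <;> nlinarith
    have := (mul_eq_zero.1 h2).resolve_left h3.ne'
    simp [this]
  · have h3 : 0 < (lam - 2 * p) * (lam - p - κ * p) - p ^ 2 := by
      rcases hp with h | h
      · subst h; nlinarith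
      · have : 0 < κ * -p := by nlinarith
        nlinarith
    have h1 : ((lam - 2 * p) * (lam - p - κ * p) - p ^ 2) * x = 0 := by
      linear_combination (lam - p - κ * p) * e1 - p * e2
    have h2 : ((lam - 2 * p) * (lam - p - κ * p) - p ^ 2) * z = 0 := by
      linear_combination (lam - 2 * p) * e2 - p * e1
    exact ⟨(mul_eq_zero.1 h1).resolve_left h3.ne', rfl, (mul_eq_zero.1 h2).resolve_left h3.ne'⟩
  · have h1 : x = -κ * y := by
      have : p * (x + κ * y) = 0 := by linarith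
      rcases mul_eq_zero.1 this with h | h
      · exact absurd h hp0
      · linarith
    subst h1
    have h2 : (lam * κ - 2 * κ * p - p) * y = 0 := by linarith
    have h3 : 0 < lam * κ - 2 * κ * p - p := by rcases hp with h | h <;> nlinarith
    have := (mul_eq_zero.1 h2).resolve_left h3.ne'
    simp [this]

lemma vec {lam κ τ : ℝ} (hκ : 0 < κ) (hκ1 : κ ≤ 1) (hl : lam * κ = 1 + 3 * κ) (hτ : 1 < τ)
    {u x y z : E} (hu : ‖u‖ = 1)
    (e1 : lam • x - (x - y - (τ * inner ℝ u (x - y)) • u) - (x - z - (τ * inner ℝ u (x - z)) • u) = 0)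
    (e2 : lam • z + (x - z - (τ * inner ℝ u (x - z)) • u) +
      κ • (y - z - (τ * inner ℝ u (y - z)) • u) = 0) (h : x = 0 ∨ y = 0 ∨ z = 0) :
    x = 0 ∧ y = 0 ∧ z = 0 := by
  have huu : inner ℝ u u = (1 : ℝ) := by rw [real_inner_self_eq_norm_sq, hu]; norm_num
  have h' : ∀ v : E, inner ℝ v x = (0 : ℝ) ∨ inner ℝ v y = (0 : ℝ) ∨ inner ℝ v z = (0 : ℝ) := by
    intro v; rcases h with rfl | rfl | rfl <;> simp
  have a1 := congrArg (inner ℝ u) e1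
  have a2 := congrArg (inner ℝ u) e2
  simp only [inner_sub_right, inner_add_right, real_inner_smul_right, huu, inner_zero_right]
    at a1 a2
  obtain ⟨b1, b2, b3⟩ := scal (p := 1 - τ) hκ hκ1 hl (Or.inr (by linarith)) (by linarith)
    (by linarith) (h' u)
  simp only [inner_sub_right, b1, b2, b3, sub_zero, mul_zero, zero_smul] at e1 e2
  have key : ∀ v : E, inner ℝ v x = (0 : ℝ) ∧ inner ℝ v y = (0 : ℝ) ∧ inner ℝ v z = (0 : ℝ) := by
    intro v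
    have a1 := congrArg (inner ℝ v) e1
    have a2 := congrArg (inner ℝ v) e2
    simp only [inner_sub_right, inner_add_right, real_inner_smul_right, inner_zero_right] at a1 a2
    exact scal (p := 1) hκ hκ1 hl (Or.inl rfl) (by linarith) (by linarith) (h' v)
  exact ⟨inner_self_eq_zero.1 (key x).1, inner_self_eq_zero.1 (key y).2.1,
    inner_self_eq_zero.1 (key z).2.2⟩

lemma gg_neg (σ : ℝ) (x : E) : gg σ (-x) = -gg σ x := by simp [gg, wt]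

lemma local_charts [FiniteDimensional ℝ E] {σ lam : ℝ} (hσ : 1 / 2 < σ)
    (hl : lam * (4 : ℝ) ^ (-σ) = 1 + 3 * (4 : ℝ) ^ (-σ)) {u : E} (hu : ‖u‖ = 1) :
    ∃ (eB eC : OpenPartialHomeomorph E E) (l : E), Nice eB 0 ∧ Nice eC 0 ∧ eB 0 = u ∧ eC 0 = -u ∧
      ∀ᶠ a in 𝓝 (0 : E), lam • a - gg σ (a - eB a) - gg σ (a - eC a) = 0 ∧
        lam • eC a - l + gg σ (a - eC a) + gg σ (eB a - eC a) = 0 := by
  have hu0 : u ≠ 0 := by rintro rfl; simp at hu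
  set l : E := lam • (-u) + gg σ (0 - -u) + gg σ (u - -u) with hl'
  set Ψ : E × E × E → E × E × E := fun p => (p.1, lam • p.1 - gg σ (p.1 - p.2.1) - gg σ (p.1 - p.2.2),
    lam • p.2.2 - l + gg σ (p.1 - p.2.2) + gg σ (p.2.1 - p.2.2)) with hΨ
  set x₀ : E × E × E := (0, u, -u) with hx₀
  have q1 : x₀.1 - x₀.2.1 = (-1 : ℝ) • u := by simp [hx₀]
  have q2 : x₀.1 - x₀.2.2 = (1 : ℝ) • u := by simp [hx₀]
  have q3 : x₀.2.1 - x₀.2.2 = (2 : ℝ) • u := by simp [hx₀, two_smul]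
  have hΨ0 : Ψ x₀ = (0, 0, 0) := by
    simp only [hΨ, hx₀, hl', zero_sub, gg_neg, neg_neg]
    simp only [smul_zero, zero_sub, neg_neg, sub_self, Prod.mk.injEq, true_and]
    abel
  have hsm : ContDiffAt ℝ ω Ψ x₀ := by
    have c1 : ContDiffAt ℝ ω (fun p : E × E × E => gg σ (p.1 - p.2.1)) x₀ :=
      (gg_contDiffAt σ (by rw [q1]; simpa)).comp x₀ (by fun_prop)
    have c2 : ContDiffAt ℝ ω (fun p : E × E × E => gg σ (p.1 - p.2.2)) x₀ :=
      (gg_contDiffAt σ (by rw [q2]; simpa)).comp x₀ (by fun_prop)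
    have c3 : ContDiffAt ℝ ω (fun p : E × E × E => gg σ (p.2.1 - p.2.2)) x₀ :=
      (gg_contDiffAt σ (by rw [q3]; simpa)).comp x₀ (by fun_prop)
    rw [hΨ]
    fun_prop
  obtain ⟨L1, hL1, fL1⟩ := gg_deriv σ hu (t := -1) (by norm_num)
  obtain ⟨L2, hL2, fL2⟩ := gg_deriv σ hu (t := 1) (by norm_num)
  obtain ⟨L3, hL3, fL3⟩ := gg_deriv σ hu (t := 2) (by norm_num)
  rw [← q1] at hL1
  rw [← q2] at hL2
  rw [← q3] at hL3
  have d1 := hasFDerivAt_fst (𝕜 := ℝ) (p := x₀)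
  have d2 := (hasFDerivAt_snd (𝕜 := ℝ) (p := x₀)).fst
  have d3 := (hasFDerivAt_snd (𝕜 := ℝ) (p := x₀)).snd
  have g1 := HasFDerivAt.comp (g := gg σ) x₀ hL1 (d1.fun_sub d2)
  have g2 := HasFDerivAt.comp (g := gg σ) x₀ hL2 (d1.fun_sub d3)
  have g3 := HasFDerivAt.comp (g := gg σ) x₀ hL3 (d2.fun_sub d3)
  obtain ⟨D, hD, fD⟩ : ∃ D : E × E × E →L[ℝ] E × E × E, HasFDerivAt Ψ D x₀ ∧ ∀ v, D v =
      (v.1, lam • v.1 - L1 (v.1 - v.2.1) - L2 (v.1 - v.2.2),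
        lam • v.2.2 + L2 (v.1 - v.2.2) + L3 (v.2.1 - v.2.2)) :=
    ⟨_, d1.prodMk ((((d1.const_smul lam).sub g1).sub g2).prodMk
      ((((d3.const_smul lam).sub_const l).add g2).add g3)), fun v => by simp⟩
  have hκ : 0 < (4 : ℝ) ^ (-σ) := by positivity
  have hκ1 : (4 : ℝ) ^ (-σ) ≤ 1 := Real.rpow_le_one_of_one_le_of_nonpos (by norm_num) (by linarith)
  have hker : ∀ v w, D v = (w, 0, 0) → (v.1 = 0 ∨ v.2.1 = 0 ∨ v.2.2 = 0) → v = 0 ∧ w = 0 := by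
    intro v w hv h
    rw [fD, fL1, fL2, fL3] at hv
    simp only [Prod.mk.injEq, neg_one_sq, one_pow, Real.one_rpow, one_smul,
      show (2 : ℝ) ^ 2 = 4 by norm_num] at hv
    obtain ⟨b1, b2, b3⟩ := vec hκ hκ1 hl (by linarith) hu hv.2.1 hv.2.2 h
    exact ⟨Prod.ext b1 (Prod.ext b2 b3), hv.1 ▸ b1⟩
  obtain ⟨e, he, hx, hes⟩ := ift hsm hD ((injective_iff_map_eq_zero _).2 fun v hv =>
    (hker v 0 hv (Or.inl (by simpa [fD] using congrArg Prod.fst hv))).1)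
  rw [hΨ0] at hes
  set m : E → E × E × E := fun a => e.symm (a, 0, 0) with hm
  have hm0 : m 0 = x₀ := by rw [hm]; simp only; rw [← hΨ0, ← he, e.left_inv hx]
  have hms : ContDiffAt ℝ ω m 0 :=
    ContDiffAt.comp (g := e.symm) (f := fun a : E => ((a, 0, 0) : E × E × E)) 0 hes (by fun_prop)
  have hev : ∀ᶠ a in 𝓝 (0 : E), Ψ (m a) = (a, 0, 0) := by
    have h1 : ((0, 0, 0) : E × E × E) ∈ e.target := by rw [← hΨ0, ← he]; exact e.map_source hx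
    have h2 : Tendsto (fun a : E => ((a, 0, 0) : E × E × E)) (𝓝 0) (𝓝 (0, 0, 0)) :=
      Continuous.tendsto (by fun_prop) _
    filter_upwards [h2.eventually (e.eventually_right_inverse h1)] with a ha
    rw [← he]; exact ha
  have hM := (hms.differentiableAt (by simp)).hasFDerivAt
  set M := fderiv ℝ m 0
  have hDM : ∀ v, D (M v) = (v, 0, 0) := by
    intro v
    have h1 := HasFDerivAt.comp 0 (hm0 ▸ hD) hM
    have h2 : HasFDerivAt (Ψ ∘ m) (ContinuousLinearMap.inl ℝ E (E × E)) 0 :=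
      (ContinuousLinearMap.inl ℝ E (E × E)).hasFDerivAt.congr_of_eventuallyEq hev
    exact congrArg (fun A : E →L[ℝ] E × E × E => A v) (h1.unique h2)
  obtain ⟨eB, hB, xB, sB⟩ := ift hms.snd.fst hM.snd.fst ((injective_iff_map_eq_zero _).2 fun v hv =>
    (hker _ _ (hDM v) (Or.inr (Or.inl hv))).2)
  obtain ⟨eC, hC, xC, sC⟩ := ift hms.snd.snd hM.snd.snd ((injective_iff_map_eq_zero _).2 fun v hv =>
    (hker _ _ (hDM v) (Or.inr (Or.inr hv))).2)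
  refine ⟨eB, eC, l, ⟨xB, hB ▸ hms.snd.fst, hB ▸ sB⟩, ⟨xC, hC ▸ hms.snd.snd, hC ▸ sC⟩,
    by rw [hB]; simp [hm0, hx₀], by rw [hC]; simp [hm0, hx₀], ?_⟩
  filter_upwards [hev] with a ha
  simp only [hΨ, Prod.mk.injEq] at ha
  rw [hB, hC]
  obtain ⟨h1, h2, h3⟩ := ha
  rw [h1] at h2 h3
  exact ⟨h2, h3⟩

omit [InnerProductSpace ℝ E] in
lemma conv {s : ℝ} (hs : 0 < s) {x y : E} (hx : x ≠ 0) (hy : y ≠ 0) :
    ‖x‖ ^ (-s) - s / 2 * (wt (s / 2 + 1) x * (‖y‖ ^ 2 - ‖x‖ ^ 2)) ≤ ‖y‖ ^ (-s) := by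
  have hx' : 0 < ‖x‖ := norm_pos_iff.2 hx
  have hy' : 0 < ‖y‖ := norm_pos_iff.2 hy
  have e1 : wt (s / 2 + 1) x = ‖x‖ ^ (-s) / ‖x‖ ^ 2 := by
    rw [wt, ← Real.rpow_natCast, ← Real.rpow_mul hx'.le, ← Real.rpow_sub hx']
    congr 1; push_cast; ring
  have e2 : ‖y‖ ^ (-s) = ‖x‖ ^ (-s) * Real.exp (-(s / 2) * Real.log (‖y‖ ^ 2 / ‖x‖ ^ 2)) := by
    rw [Real.rpow_def_of_pos hx', Real.rpow_def_of_pos hy', ← Real.exp_add,
      Real.log_div (by positivity) (by positivity), Real.log_pow, Real.log_pow]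
    congr 1; push_cast; ring
  have h1 := Real.add_one_le_exp (-(s / 2) * Real.log (‖y‖ ^ 2 / ‖x‖ ^ 2))
  have h2 := Real.log_le_sub_one_of_pos (x := ‖y‖ ^ 2 / ‖x‖ ^ 2) (by positivity)
  have h3 : 0 < ‖x‖ ^ (-s) := by positivity
  rw [e2, e1]
  calc ‖x‖ ^ (-s) - s / 2 * (‖x‖ ^ (-s) / ‖x‖ ^ 2 * (‖y‖ ^ 2 - ‖x‖ ^ 2))
      = ‖x‖ ^ (-s) * (-(s / 2) * (‖y‖ ^ 2 / ‖x‖ ^ 2 - 1) + 1) := by field_simp; ring
    _ ≤ _ := by
      gcongr
      refine le_trans ?_ h1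
      nlinarith

/-- real three-body cost -/
noncomputable def hh (s : ℝ) (a b c : E) : ℝ := ‖a - b‖ ^ (-s) + ‖a - c‖ ^ (-s) + ‖b - c‖ ^ (-s)

lemma key_ineq {s lam : ℝ} (hs : 0 < s) {a b c l a' c' : E} (h1 : a ≠ b) (h2 : a ≠ c) (h3 : b ≠ c)
    (h1' : a' ≠ b) (h2' : a' ≠ c') (h3' : b ≠ c')
    (e1 : lam • a - gg (s / 2 + 1) (a - b) - gg (s / 2 + 1) (a - c) = 0)
    (e2 : lam • c - l + gg (s / 2 + 1) (a - c) + gg (s / 2 + 1) (b - c) = 0) :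
    hh s a b c + s / 2 * (lam * ‖a‖ ^ 2) + s / 2 * (lam * ‖c‖ ^ 2 - 2 * inner ℝ l c) +
      s / 2 * ((lam - wt (s / 2 + 1) (a - b) - 2 * wt (s / 2 + 1) (a - c)) * ‖a' - a‖ ^ 2 +
        (lam - wt (s / 2 + 1) (b - c) - 2 * wt (s / 2 + 1) (a - c)) * ‖c' - c‖ ^ 2) ≤
    hh s a' b c' + s / 2 * (lam * ‖a'‖ ^ 2) + s / 2 * (lam * ‖c'‖ ^ 2 - 2 * inner ℝ l c') := by
  have k1 := conv hs (sub_ne_zero.2 h1) (sub_ne_zero.2 h1')
  have k2 := conv hs (sub_ne_zero.2 h2) (sub_ne_zero.2 h2')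
  have k3 := conv hs (sub_ne_zero.2 h3) (sub_ne_zero.2 h3')
  obtain ⟨δ, rfl⟩ : ∃ δ, a' = a + δ := ⟨a' - a, by abel⟩
  obtain ⟨η, rfl⟩ : ∃ η, c' = c + η := ⟨c' - c, by abel⟩
  have f1 := congrArg (fun v => inner ℝ v δ) e1
  have f2 := congrArg (fun v => inner ℝ v η) e2
  simp only [gg, inner_sub_left (lam • a - _), inner_sub_left (lam • a), inner_sub_left (lam • c),
    inner_add_left, real_inner_smul_left, inner_zero_left] at f1 f2
  have n1 : ‖a + δ - b‖ ^ 2 = ‖a - b‖ ^ 2 + 2 * inner ℝ (a - b) δ + ‖δ‖ ^ 2 := by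
    rw [← norm_add_sq_real]; congr 2; abel
  have n2 : ‖a + δ - (c + η)‖ ^ 2 =
      ‖a - c‖ ^ 2 + 2 * (inner ℝ (a - c) δ - inner ℝ (a - c) η) + ‖δ - η‖ ^ 2 := by
    rw [← inner_sub_right, ← norm_add_sq_real]; congr 2; abel
  have n3 : ‖b - (c + η)‖ ^ 2 = ‖b - c‖ ^ 2 - 2 * inner ℝ (b - c) η + ‖η‖ ^ 2 := by
    rw [← norm_sub_sq_real]; congr 2; abel
  have n4 : ‖δ - η‖ ^ 2 ≤ 2 * ‖δ‖ ^ 2 + 2 * ‖η‖ ^ 2 := by
    have := parallelogram_law_with_norm ℝ δ η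
    nlinarith [sq_nonneg ‖δ + η‖]
  have w2 : 0 ≤ wt (s / 2 + 1) (a - c) := by unfold wt; positivity
  have n5 := mul_le_mul_of_nonneg_left (mul_le_mul_of_nonneg_left n4 w2) (half_pos hs).le
  rw [n1] at k1
  rw [n2] at k2
  rw [n3] at k3
  simp only [hh, add_sub_cancel_left, norm_add_sq_real, inner_add_right]
  linear_combination k1 + k2 + k3 + n5 - s * f1 - s * f2

end Crest.Agent.H0175
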