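import Crest.Agent.H0175.Struct

set_option autoImplicit false

namespace Crest.Agent.H0175

open MeasureTheory Set Crest.AnalysisR.OT
open scoped ContDiff ENNReal

theorem main {E : Type*} [NormedAddCommGroup E] [InnerProductSpace ℝ E] [FiniteDimensional ℝ E]
    [MeasureSpace E] [BorelSpace E] [(volume : Measure E).IsAddHaarMeasure] {s : ℝ} (hs : 0 < s)
    {u₁ u₂ : E} (h₁ : ‖u₁‖ = 1) (h₂ : ‖u₂‖ = 1) (h₁₂ : inner ℝ u₁ u₂ = 0) :
    ∃ ρ : E → ℝ, (∀ x, 0 ≤ ρ x) ∧ ContDiff ℝ ∞ ρ ∧ HasCompactSupport ρ ∧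
      ContDiff ℝ ∞ (fun x => Real.sqrt (ρ x)) ∧ ∫ x, ρ x = 1 ∧
      ∃ π₀ : Measure (E × E × E),
        IsCoupling₃ (measOfDensity ρ) π₀ ∧ ∫⁻ p, tripleCost s p ∂π₀ < ⊤ ∧
        (∀ π : Measure (E × E × E), IsCoupling₃ (measOfDensity ρ) π →
          ∫⁻ p, tripleCost s p ∂π₀ ≤ ∫⁻ p, tripleCost s p ∂π) ∧
        (∀ T₂ T₃ : E → E, Measurable T₂ → Measurable T₃ →
          (measOfDensity ρ).map T₂ = measOfDensity ρ → (measOfDensity ρ).map T₃ = measOfDensity ρ →
          ∫⁻ p, tripleCost s p ∂π₀ < ∫⁻ x, tripleCost s (x, T₂ x, T₃ x) ∂(measOfDensity ρ)) ∧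
        (∀ ε : ℝ≥0∞, 0 < ε → ∃ T₂ T₃ : E → E, Measurable T₂ ∧ Measurable T₃ ∧
          (measOfDensity ρ).map T₂ = measOfDensity ρ ∧ (measOfDensity ρ).map T₃ = measOfDensity ρ ∧
          ∫⁻ x, tripleCost s (x, T₂ x, T₃ x) ∂(measOfDensity ρ) <
            ∫⁻ p, tripleCost s p ∂π₀ + ε) := by
  classical
  obtain ⟨e, v, r, hr, e0, nice, hv, sep, hQ⟩ := struct hs h₁ h₂ h₁₂
  set O := Metric.ball (0 : E) r with hO
  have mO : MeasurableSet O := measurableSet_ball
  set θ : Fin 5 → E → E := fun i => O.piecewise (e i) 0 with hθ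
  have mθ : ∀ i, Measurable (θ i) := fun i => ContinuousOn.measurable_piecewise
    (fun a ha => (nice i a ha).2.1.continuousAt.continuousWithinAt) continuousOn_const mO
  have θe : ∀ i, EqOn (θ i) (e i) O := fun i => piecewise_eqOn _ _ _
  set V : Fin 5 → E → ℝ := fun i => O.piecewise (v i) 0 with hV
  have mV : ∀ i, Measurable (V i) := fun i => ContinuousOn.measurable_piecewise
    (fun a ha => (hv i a ha).1.continuousWithinAt) continuousOn_const mO
  have Ve : ∀ i, EqOn (V i) (v i) O := fun i => piecewise_eqOn _ _ _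
  -- the base density
  obtain ⟨ψ, sψ, pψ, cψ, tψ, iψ⟩ : ∃ ψ : E → ℝ, ContDiff ℝ ∞ ψ ∧ (∀ x, 0 ≤ ψ x) ∧
      HasCompactSupport ψ ∧ tsupport ψ ⊆ O ∧ ∫ x, ψ x ^ 2 = 1 / 6 := by
    let f : ContDiffBump (0 : E) := ⟨r / 4, r / 2, by positivity, by linarith⟩
    have hI : 0 < ∫ x, f x ^ 2 := by
      refine Continuous.integral_pos_of_hasCompactSupport_nonneg_nonzero (x := 0)
        (f.continuous.pow 2) (f.hasCompactSupport.comp_left (g := fun t : ℝ => t ^ 2) (by simp))
        (fun x => sq_nonneg _) ?_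
      rw [f.one_of_mem_closedBall (Metric.mem_closedBall_self f.rIn_pos.le)]; norm_num
    refine ⟨fun x => (√(6 * ∫ x, f x ^ 2))⁻¹ * f x, contDiff_const.mul f.contDiff,
      fun x => mul_nonneg (by positivity) f.nonneg, f.hasCompactSupport.mul_left, ?_, ?_⟩
    · refine (tsupport_mul_subset_right).trans ?_
      rw [f.tsupport_eq]
      exact Metric.closedBall_subset_ball (by change r / 2 < r; linarith)
    · simp only [mul_pow]
      rw [integral_const_mul, inv_pow, Real.sq_sqrt (by positivity)]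
      field_simp
  set ν : Measure E := volume.withDensity fun x => ENNReal.ofReal (ψ x ^ 2) with hν
  have mψ : Measurable fun x => ENNReal.ofReal (ψ x ^ 2) :=
    (sψ.continuous.measurable.pow_const 2).ennreal_ofReal
  have νu : ν univ = ENNReal.ofReal (1 / 6) := by
    rw [hν, withDensity_apply _ MeasurableSet.univ, Measure.restrict_univ, ← iψ]
    have c1 : Continuous fun x => ψ x ^ 2 := sψ.continuous.pow 2
    have c2 : HasCompactSupport fun x => ψ x ^ 2 :=
      cψ.comp_left (g := fun t : ℝ => t ^ 2) (by simp)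
    exact (ofReal_integral_eq_lintegral_ofReal (c1.integrable_of_hasCompactSupport c2)
      (ae_of_all _ fun x => sq_nonneg _)).symm
  have νO : ∀ᵐ a ∂ν, a ∈ O := by
    rw [hν, ae_withDensity_iff mψ]
    refine ae_of_all _ fun x hx => tψ (subset_tsupport _ fun h => hx ?_)
    simp [h]
  have hP := fun i => push (volume : Measure E) Metric.isOpen_ball (nice i) (mθ i) (θe i) sψ pψ cψ tψ
  choose χ sχ pχ cχ tχ eχ using hP
  have inj : ∀ i j, ∀ a ∈ O, ∀ b ∈ O, θ i a = θ j b → i = j ∧ a = b := by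
    intro i j a ha b hb h
    rw [θe i ha, θe j hb] at h
    have hij : i = j := by
      by_contra hij
      have := sep i j hij a ha b hb
      rw [h, sub_self, norm_zero] at this
      norm_num at this
    subst hij
    exact ⟨rfl, (e i).injOn (nice i a ha).1 (nice i b hb).1 h⟩
  have cross : ∀ i j, i ≠ j → ∀ x, χ i x * χ j x = 0 := by
    intro i j hij x
    by_contra h
    obtain ⟨a, ha, h1⟩ := tχ i x (left_ne_zero_of_mul h)
    obtain ⟨b, hb, h2⟩ := tχ j x (right_ne_zero_of_mul h)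
    exact hij (inj i j a ha b hb (h1.trans h2.symm)).1
  set g : E → ℝ := fun x => √2 * χ 0 x + χ 1 x + χ 2 x + χ 3 x + χ 4 x with hg
  have sg : ContDiff ℝ ∞ g :=
    ((((contDiff_const.mul (sχ 0)).add (sχ 1)).add (sχ 2)).add (sχ 3)).add (sχ 4)
  have pg : ∀ x, 0 ≤ g x := fun x => by
    have := pχ 0 x; have := pχ 1 x; have := pχ 2 x; have := pχ 3 x; have := pχ 4 x
    positivity
  have cg : HasCompactSupport g :=
    ((((cχ 0).mul_left.add (cχ 1)).add (cχ 2)).add (cχ 3)).add (cχ 4)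
  have g2 : ∀ x, g x ^ 2 = χ 0 x ^ 2 + χ 0 x ^ 2 + χ 1 x ^ 2 + χ 2 x ^ 2 + χ 3 x ^ 2 + χ 4 x ^ 2 := by
    intro x
    have h2 : √2 ^ 2 = (2 : ℝ) := Real.sq_sqrt (by norm_num)
    simp only [hg]
    linear_combination χ 0 x ^ 2 * h2 + 2 * √2 * (cross 0 1 (by decide) x + cross 0 2 (by decide) x +
      cross 0 3 (by decide) x + cross 0 4 (by decide) x) + 2 * (cross 1 2 (by decide) x +
      cross 1 3 (by decide) x + cross 1 4 (by decide) x + cross 2 3 (by decide) x +
      cross 2 4 (by decide) x + cross 3 4 (by decide) x)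
  set μ : Measure E := measOfDensity fun x => g x ^ 2 with hμ
  have mχ : ∀ i, Measurable fun x => ENNReal.ofReal (χ i x ^ 2) := fun i =>
    ((sχ i).continuous.measurable.pow_const 2).ennreal_ofReal
  have μe : μ = ν.map (θ 0) + ν.map (θ 0) + ν.map (θ 1) + ν.map (θ 2) + ν.map (θ 3) +
      ν.map (θ 4) := by
    simp only [hν, eχ]
    rw [← withDensity_add_right _ (mχ _), ← withDensity_add_right _ (mχ _),
      ← withDensity_add_right _ (mχ _), ← withDensity_add_right _ (mχ _),
      ← withDensity_add_right _ (mχ _), hμ, measOfDensity]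
    congr 1
    ext x
    simp only [Pi.add_apply, g2]
    rw [ENNReal.ofReal_add (by positivity) (by positivity),
      ENNReal.ofReal_add (by positivity) (by positivity),
      ENNReal.ofReal_add (by positivity) (by positivity),
      ENNReal.ofReal_add (by positivity) (by positivity),
      ENNReal.ofReal_add (by positivity) (by positivity)]
  have μu : μ univ = 1 := by
    have : ∀ i, ν.map (θ i) univ = ENNReal.ofReal (1 / 6) := fun i => by
      rw [Measure.map_apply (mθ i) MeasurableSet.univ, preimage_univ, νu]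
    simp only [μe, Measure.add_apply, this]
    rw [← ENNReal.ofReal_add (by positivity) (by positivity),
      ← ENNReal.ofReal_add (by positivity) (by positivity),
      ← ENNReal.ofReal_add (by positivity) (by positivity),
      ← ENNReal.ofReal_add (by positivity) (by positivity),
      ← ENNReal.ofReal_add (by positivity) (by positivity)]
    norm_num
  have : IsProbabilityMeasure μ := ⟨μu⟩
  have : Nontrivial E := by
    refine ⟨⟨u₁, 0, ?_⟩⟩
    rintro rfl
    simp at h₁
  have : NullSingletonClass μ := ⟨fun x => withDensity_absolutelyContinuous _ _ (measure_singleton x)⟩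
  -- label and base point
  obtain ⟨ι, mι, hι⟩ : ∃ ι : E → Fin 5 × E, Measurable ι ∧ ∀ i, ∀ a ∈ O, ι (θ i a) = (i, a) := by
    have := mO.standardBorel
    have m1 : Measurable fun z : Fin 5 × O => θ z.1 z.2 :=
      measurable_from_prod_countable_right fun i => (mθ i).comp measurable_subtype_coe
    have m2 := m1.measurableEmbedding fun z z' h => by
      obtain ⟨h1, h2⟩ := inj _ _ _ z.2.2 _ z'.2.2 h
      exact Prod.ext h1 (Subtype.ext h2)
    obtain ⟨ι, mι, hι⟩ := m2.exists_measurable_extend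
      (g := fun z : Fin 5 × O => (z.1, (z.2 : E))) (by fun_prop) fun _ => inferInstance
    exact ⟨ι, mι, fun i a ha => congrFun hι (i, ⟨a, ha⟩)⟩
  set u : E → ℝ≥0∞ := fun x => ENNReal.ofReal (V (ι x).1 (ι x).2) with hu
  have mu : Measurable u :=
    ((measurable_from_prod_countable_right (f := fun z : Fin 5 × E => V z.1 z.2) mV).comp
      mι).ennreal_ofReal
  have uθ : ∀ i, ∀ a ∈ O, u (θ i a) = ENNReal.ofReal (v i a) := fun i a ha => by
    simp only [hu, hι i a ha, Ve i ha]
  set U : Set E := {x | ∃ i, ∃ a ∈ O, θ i a = x} with hU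
  have μU : ∀ᵐ x ∂μ, x ∈ U := by
    rw [hμ, measOfDensity,
      ae_withDensity_iff (sg.continuous.measurable.pow_const 2).ennreal_ofReal]
    refine ae_of_all _ fun x hx => ?_
    by_contra h
    have : ∀ i, χ i x = 0 := fun i => by
      by_contra h'
      exact h ⟨i, tχ i x h'⟩
    simp [hg, this] at hx
  have hle : ∀ x ∈ U, ∀ y ∈ U, ∀ z ∈ U, u x + u y + u z ≤ tripleCost s (x, y, z) := by
    rintro _ ⟨i, a, ha, rfl⟩ _ ⟨j, b, hb, rfl⟩ _ ⟨k, c, hc, rfl⟩
    rw [uθ i a ha, uθ j b hb, uθ k c hc, θe i ha, θe j hb, θe k hc]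
    exact (hQ i j k a ha b hb c hc).1
  have ufin : ∫⁻ x, u x ∂μ ≠ ⊤ := by
    refine ne_top_of_le_ne_top (b := ∫⁻ _, ENNReal.ofReal 3 ∂μ) (by simp) (lintegral_mono_ae ?_)
    filter_upwards [μU]
    rintro _ ⟨i, a, ha, rfl⟩
    rw [uθ i a ha]
    exact ENNReal.ofReal_le_ofReal (hv i a ha).2
  -- the optimal plan
  set P : Fin 5 → Fin 5 → Fin 5 → Measure (E × E × E) :=
    fun i j k => ν.map fun a => (θ i a, θ j a, θ k a) with hPd
  have mP : ∀ i j k, Measurable fun a => (θ i a, θ j a, θ k a) :=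
    fun i j k => (mθ i).prodMk ((mθ j).prodMk (mθ k))
  set π₀ := P 0 1 2 + P 1 2 0 + P 2 0 1 + P 0 3 4 + P 3 4 0 + P 4 0 3 with hπ₀
  have cpl : IsCoupling₃ μ π₀ := by
    have m1 : Measurable fun p : E × E × E => p.1 := by fun_prop
    have m2 : Measurable fun p : E × E × E => p.2.1 := by fun_prop
    have m3 : Measurable fun p : E × E × E => p.2.2 := by fun_prop
    have p1 : ∀ i j k, (P i j k).map (fun p => p.1) = ν.map (θ i) :=
      fun i j k => Measure.map_map m1 (mP i j k)
    have p2 : ∀ i j k, (P i j k).map (fun p => p.2.1) = ν.map (θ j) :=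
      fun i j k => Measure.map_map m2 (mP i j k)
    have p3 : ∀ i j k, (P i j k).map (fun p => p.2.2) = ν.map (θ k) :=
      fun i j k => Measure.map_map m3 (mP i j k)
    refine ⟨?_, ?_, ?_⟩
    · simp only [hπ₀, Measure.map_add _ _ m1, p1, μe]; abel
    · simp only [hπ₀, Measure.map_add _ _ m2, p2, μe]; abel
    · simp only [hπ₀, Measure.map_add _ _ m3, p3, μe]; abel
  have mc := (continuous_tripleCost (E := E) s).measurable
  have aeπ : ∀ R : E × E × E → Prop, MeasurableSet {p | R p} →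
      (∀ i j k, good i j k → ∀ a ∈ O, R (θ i a, θ j a, θ k a)) → ∀ᵐ p ∂π₀, R p := by
    intro R mR hR
    have : ∀ i j k, good i j k → ∀ᵐ p ∂P i j k, R p := fun i j k h =>
      (ae_map_iff (mP i j k).aemeasurable mR).2 (νO.mono (hR i j k h))
    simp only [hπ₀, ae_add_measure_iff]
    exact ⟨⟨⟨⟨⟨this _ _ _ (by decide), this _ _ _ (by decide)⟩, this _ _ _ (by decide)⟩,
      this _ _ _ (by decide)⟩, this _ _ _ (by decide)⟩, this _ _ _ (by decide)⟩
  have val : ∫⁻ p, tripleCost s p ∂π₀ = 3 * ∫⁻ x, u x ∂μ := by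
    rw [← lintegral_pot cpl mu]
    refine lintegral_congr_ae (aeπ _ (measurableSet_eq_fun mc (by fun_prop)) ?_)
    intro i j k h a ha
    simp only [uθ _ a ha]
    rw [θe i ha, θe j ha, θe k ha]
    exact ((hQ i j k a ha a ha a ha).2.2 ⟨rfl, rfl, h⟩).symm
  have fin : ∫⁻ p, tripleCost s p ∂π₀ < ⊤ := by
    rw [val]; exact ENNReal.mul_lt_top (by simp) ufin.lt_top
  refine ⟨fun x => g x ^ 2, fun x => sq_nonneg _, sg.pow 2,
    cg.comp_left (g := fun t : ℝ => t ^ 2) (by simp), ?_, ?_, π₀, cpl, fin, ?_, ?_, ?_⟩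
  · simpa only [Real.sqrt_sq (pg _)] using sg
  · rw [integral_eq_lintegral_of_nonneg_ae (ae_of_all _ fun x => sq_nonneg _)
      (sg.continuous.pow 2).aestronglyMeasurable]
    rw [hμ, measOfDensity, withDensity_apply _ MeasurableSet.univ, Measure.restrict_univ] at μu
    rw [μu]; rfl
  · intro π hπ
    rw [val]; exact pot_le hπ μU mu hle
  · intro T₂ T₃ h₂ h₃ e₂ e₃
    have cnt : ∀ R : Fin 5 × E → Prop, MeasurableSet {z | R z} → ∀ i,
        ν.map (θ i) {x | R (ι x)} = ν {a | R (i, a)} := by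
      intro R mR i
      refine (Measure.map_apply (mθ i) (mι mR)).trans ?_
      refine measure_congr (νO.mono fun a ha => ?_)
      change R (ι (θ i a)) = R (i, a)
      rw [hι i a ha]
    have mD : ∀ p : Fin 5 → Prop, MeasurableSet {z : Fin 5 × E | p z.1} := fun p =>
      measurable_fst (MeasurableSet.of_discrete (s := {i | p i}))
    rw [val]
    refine pot_lt μU mu mc ufin hle (measurable_fst.comp mι) (measurable_snd.comp mι) ?_ ?_ ?_ ?_
      h₂ h₃ e₂ e₃
    · rintro _ ⟨i, a, ha, rfl⟩ _ ⟨j, b, hb, rfl⟩ _ ⟨k, c, hc, rfl⟩ h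
      rw [uθ i a ha, uθ j b hb, uθ k c hc, θe i ha, θe j hb, θe k hc] at h
      simpa only [Function.comp, hι _ a ha, hι _ b hb, hι _ c hc] using
        (hQ i j k a ha b hb c hc).2.1 h
    · rintro _ ⟨i, a, ha, rfl⟩ h
      simp only [Function.comp, hι _ a ha] at h ⊢
      rw [h, θe 0 ha, e0]
    · intro S hS
      have k1 := cnt (fun z => (z.1 = 1 ∨ z.1 = 2) ∧ z.2 ∈ S)
        ((mD fun i => i = 1 ∨ i = 2).inter (measurable_snd hS))
      have k2 := cnt (fun z => z.1 = 0 ∧ z.2 ∈ S) ((mD fun i => i = 0).inter (measurable_snd hS))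
      simp only [μe, Measure.add_apply, Function.comp, k1, k2]
      simp
    · have k2 := cnt (fun z => z.1 = 0) (mD fun i => i = 0)
      simp only [μe, Measure.add_apply, Function.comp, k2]
      simp [νu]
  · refine approx hs.le μ π₀ cpl fin (aeπ _ ?_ ?_)
    · have m1 : Measurable fun p : E × E × E => ‖p.1 - p.2.1‖ := by fun_prop
      have m2 : Measurable fun p : E × E × E => ‖p.1 - p.2.2‖ := by fun_prop
      exact (measurableSet_le measurable_const m1).inter (measurableSet_le measurable_const m2)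
    · intro i j k h a ha
      have : ∀ i j k, good i j k → i ≠ j ∧ i ≠ k := by decide
      simp only [θe _ ha]
      exact ⟨sep i j (this i j k h).1 a ha a ha, sep i k (this i j k h).2 a ha a ha⟩

end Crest.Agent.H0175
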