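import Mathlib

set_option autoImplicit false

namespace Crest.Agent.H0175

open MeasureTheory Filter Topology Set
open scoped ENNReal ContDiff

variable {E : Type*} [NormedAddCommGroup E] [NormedSpace ℝ E] [FiniteDimensional ℝ E]

lemma contDiff_det {n : WithTop ℕ∞} : ContDiff ℝ n fun A : E →L[ℝ] E => A.det := by
  classical
  let b := Module.finBasis ℝ E
  have : (fun A : E →L[ℝ] E => A.det) = fun A : E →L[ℝ] E =>
      ∑ σ : Equiv.Perm (Fin (Module.finrank ℝ E)),
        ((Equiv.Perm.sign σ : ℤ) : ℝ) * ∏ i, (b.coord (σ i)).toContinuousLinearMap (A (b i)) := by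
    ext A
    rw [ContinuousLinearMap.det, ← LinearMap.det_toMatrix b, Matrix.det_apply']
    simp [LinearMap.toMatrix_apply]
  rw [this]
  refine ContDiff.sum fun σ _ => contDiff_const.mul (contDiff_prod fun i _ => ?_)
  exact (ContinuousLinearMap.contDiff _).comp (contDiff_id.clm_apply contDiff_const)

lemma ift {F : E → E} {x : E} (hF : ContDiffAt ℝ ω F x) {F' : E →L[ℝ] E} (hF' : HasFDerivAt F F' x)
    (hinj : Function.Injective F') :
    ∃ e : OpenPartialHomeomorph E E, ⇑e = F ∧ x ∈ e.source ∧ ContDiffAt ℝ ω e.symm (F x) := by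
  let L : E ≃L[ℝ] E :=
    (LinearEquiv.ofInjectiveEndo (F' : E →ₗ[ℝ] E) hinj).toContinuousLinearEquiv
  have hL : HasFDerivAt F (L : E →L[ℝ] E) x := by
    convert hF'
    ext v; rfl
  exact ⟨hF.toOpenPartialHomeomorph F hL (by simp), rfl,
    hF.mem_toOpenPartialHomeomorph_source hL (by simp), hF.to_localInverse hL (by simp)⟩

/-- a chart which is smooth in both directions at `a` -/
def Nice (e : OpenPartialHomeomorph E E) (a : E) : Prop :=
  a ∈ e.source ∧ ContDiffAt ℝ ω e a ∧ ContDiffAt ℝ ω e.symm (e a)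

omit [FiniteDimensional ℝ E] in
lemma Nice.eventually {e : OpenPartialHomeomorph E E} {a : E} (h : Nice e a) :
    ∀ᶠ x in 𝓝 a, Nice e x := by
  filter_upwards [e.open_source.mem_nhds h.1, h.2.1.eventually (by simp),
    h.2.1.continuousAt.eventually (h.2.2.eventually (by simp))] with x a b c using ⟨a, b, c⟩

omit [FiniteDimensional ℝ E] in
lemma Nice.det_ne {e : OpenPartialHomeomorph E E} {a : E} (h : Nice e a) :
    (fderiv ℝ e.symm (e a)).det ≠ 0 := by
  have h1 := (h.2.2.differentiableAt (by simp)).hasFDerivAt.comp a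
    (h.2.1.differentiableAt (by simp)).hasFDerivAt
  have h2 : HasFDerivAt (e.symm ∘ e) (ContinuousLinearMap.id ℝ E) a :=
    (hasFDerivAt_id a).congr_of_eventuallyEq (e.eventually_left_inverse h.1)
  have h3 := congrArg ContinuousLinearMap.det (h1.unique h2)
  intro h0
  rw [ContinuousLinearMap.det, ContinuousLinearMap.toLinearMap_comp, LinearMap.det_comp] at h3
  rw [ContinuousLinearMap.det] at h0
  simp [h0, ContinuousLinearMap.det] at h3

variable [MeasurableSpace E] [BorelSpace E]

lemma push (μ : Measure E) [μ.IsAddHaarMeasure] {e : OpenPartialHomeomorph E E} {O : Set E}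
    (hO : IsOpen O) (he : ∀ a ∈ O, Nice e a) {θ : E → E} (hθ : Measurable θ) (hθe : EqOn θ e O)
    {ψ : E → ℝ} (hψ : ContDiff ℝ ∞ ψ) (h0 : ∀ x, 0 ≤ ψ x) (hc : HasCompactSupport ψ)
    (hs : tsupport ψ ⊆ O) :
    ∃ χ : E → ℝ, ContDiff ℝ ∞ χ ∧ (∀ x, 0 ≤ χ x) ∧ HasCompactSupport χ ∧
      (∀ x, χ x ≠ 0 → x ∈ θ '' O) ∧
      (μ.withDensity fun x => ENNReal.ofReal (ψ x ^ 2)).map θ =
        μ.withDensity fun x => ENNReal.ofReal (χ x ^ 2) := by
  classical
  have hOs : O ⊆ e.source := fun a ha => (he a ha).1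
  have hV : IsOpen (e '' O) := e.isOpen_image_of_subset_source hO hOs
  have hK : IsCompact (e '' tsupport ψ) :=
    hc.isCompact.image_of_continuousOn (e.continuousOn.mono (hs.trans hOs))
  set χ : E → ℝ := (e '' O).indicator fun y => ψ (e.symm y) * √|(fderiv ℝ e.symm y).det| with hχ
  have hsupp : ∀ y, y ∉ e '' tsupport ψ → χ y = 0 := by
    intro y hy
    by_cases h : y ∈ e '' O
    · obtain ⟨a, ha, rfl⟩ := h
      rw [hχ, indicator_of_mem (mem_image_of_mem _ ha), e.left_inv (hOs ha),
        image_eq_zero_of_notMem_tsupport fun h => hy (mem_image_of_mem _ h), zero_mul]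
    · exact indicator_of_notMem h _
  have hsm : ContDiff ℝ ∞ χ := by
    rw [contDiff_iff_contDiffAt]
    intro y
    by_cases h : y ∈ e '' O
    · obtain ⟨a, ha, rfl⟩ := h
      have h1 : ContDiffAt ℝ ∞ (fun y => ψ (e.symm y) * √|(fderiv ℝ e.symm y).det|) (e a) := by
        have h2 : ContDiffAt ℝ ∞ (fun y => (fderiv ℝ e.symm y).det) (e a) :=
          contDiff_det.contDiffAt.comp _ ((he a ha).2.2.fderiv_right le_top)
        exact (hψ.contDiffAt.comp _ ((he a ha).2.2.of_le le_top)).mul
          ((h2.abs (he a ha).det_ne).sqrt (abs_ne_zero.2 (he a ha).det_ne))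
      refine h1.congr_of_eventuallyEq ?_
      filter_upwards [hV.mem_nhds (mem_image_of_mem _ ha)] with y hy using indicator_of_mem hy _
    · refine (contDiffAt_const (c := (0 : ℝ))).congr_of_eventuallyEq ?_
      filter_upwards [hK.isClosed.isOpen_compl.mem_nhds fun h' => h (image_mono hs h')] with y hy
        using hsupp y hy
  refine ⟨χ, hsm, fun y => indicator_nonneg (fun y _ => mul_nonneg (h0 _) (Real.sqrt_nonneg _)) _,
    HasCompactSupport.intro hK hsupp, fun y hy => ?_, ?_⟩
  · rw [hθe.image_eq]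
    by_contra h
    exact hy (indicator_of_notMem h _)
  ext S hS
  have m1 : Measurable fun x => ENNReal.ofReal (ψ x ^ 2) :=
    (hψ.continuous.measurable.pow_const 2).ennreal_ofReal
  rw [Measure.map_apply hθ hS, withDensity_apply _ (hθ hS), withDensity_apply _ hS,
    ← lintegral_indicator (hθ hS), ← lintegral_indicator hS]
  have e1 : O = e.symm '' (e '' O) := (e.toPartialEquiv.symm_image_image_of_subset_source hOs).symm
  rw [← setLIntegral_eq_of_support_subset (s := O),
    ← setLIntegral_eq_of_support_subset (s := e '' O) (f := S.indicator _)]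
  · conv_lhs => rw [e1]
    rw [lintegral_image_eq_lintegral_abs_det_fderiv_mul μ hV.measurableSet
      (f' := fderiv ℝ e.symm)]
    · refine setLIntegral_congr_fun hV.measurableSet ?_
      rintro _ ⟨a, ha, rfl⟩
      simp only [e.left_inv (hOs ha), indicator_apply, mem_preimage, hθe ha]
      split_ifs
      · rw [hχ, indicator_of_mem (mem_image_of_mem _ ha), e.left_inv (hOs ha), mul_pow,
          Real.sq_sqrt (abs_nonneg _), ← ENNReal.ofReal_mul (abs_nonneg _), mul_comm]
      · simp
    · rintro _ ⟨a, ha, rfl⟩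
      exact ((he a ha).2.2.differentiableAt (by simp)).hasFDerivAt.hasFDerivWithinAt
    · exact e.symm.injOn.mono (by rintro _ ⟨a, ha, rfl⟩; exact e.map_source (hOs ha))
  · intro y hy
    by_contra h
    apply hy
    have : χ y = 0 := indicator_of_notMem h _
    simp [indicator_apply, this]
  · intro y hy
    by_contra h
    apply hy
    have : ψ y = 0 := image_eq_zero_of_notMem_tsupport fun h' => h (hs h')
    simp [indicator_apply, this]

end Crest.Agent.H0175
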