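import Crest.Agent.H0175.Local
import Crest.Agent.H0175.Abstract

set_option autoImplicit false

namespace Crest.Agent.H0175

open Filter Topology Set Crest.AnalysisR.OT
open scoped ContDiff ENNReal

variable {E : Type*} [NormedAddCommGroup E] [InnerProductSpace ℝ E]

omit [InnerProductSpace ℝ E] in
lemma pairCost_comm (s : ℝ) (x y : E) : pairCost s x y = pairCost s y x := by
  rw [pairCost, pairCost, norm_sub_rev]

omit [InnerProductSpace ℝ E] in
lemma tripleCost_eq (s : ℝ) {a b c : E} (h1 : a ≠ b) (h2 : a ≠ c) (h3 : b ≠ c) :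
    tripleCost s (a, b, c) = ENNReal.ofReal (hh s a b c) := by
  simp only [tripleCost, pairCost, hh]
  rw [ENNReal.ofReal_rpow_of_pos (norm_pos_iff.2 (sub_ne_zero.2 h1)),
    ENNReal.ofReal_rpow_of_pos (norm_pos_iff.2 (sub_ne_zero.2 h2)),
    ENNReal.ofReal_rpow_of_pos (norm_pos_iff.2 (sub_ne_zero.2 h3)),
    ENNReal.ofReal_add (by positivity) (by positivity),
    ENNReal.ofReal_add (by positivity) (by positivity)]

lemma rpow_norm_contDiffAt (s : ℝ) {F : E → E} {x : E} (hF : ContDiffAt ℝ ω F x) (h : F x ≠ 0) :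
    ContDiffAt ℝ ω (fun a => ‖F a‖ ^ s) x :=
  (hF.norm ℝ h).rpow_const_of_ne (norm_ne_zero_iff.2 h)

lemma pair [FiniteDimensional ℝ E] {s lam : ℝ} (hs : 0 < s)
    (hl : lam * (4 : ℝ) ^ (-(s / 2 + 1)) = 1 + 3 * (4 : ℝ) ^ (-(s / 2 + 1))) {u : E} (hu : ‖u‖ = 1) :
    ∃ (eB eC : OpenPartialHomeomorph E E) (vB vC : E → ℝ), Nice eB 0 ∧ Nice eC 0 ∧ eB 0 = u ∧
      eC 0 = -u ∧ ContDiffAt ℝ ω vB 0 ∧ ContDiffAt ℝ ω vC 0 ∧ vB 0 = 2 ^ (-s) / 2 ∧
      vC 0 = 2 ^ (-s) / 2 ∧ ∀ᶠ p : E × E × E in 𝓝 0,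
        2 - s / 2 * (lam * ‖p.1‖ ^ 2) + vB p.2.1 + vC p.2.2 ≤ hh s p.1 (eB p.2.1) (eC p.2.2) ∧
        (2 - s / 2 * (lam * ‖p.1‖ ^ 2) + vB p.2.1 + vC p.2.2 = hh s p.1 (eB p.2.1) (eC p.2.2) ↔
          p.1 = p.2.1 ∧ p.1 = p.2.2) := by
  obtain ⟨eB, eC, l, nB, nC, zB, zC, hev⟩ := local_charts (σ := s / 2 + 1) (by linarith) hl hu
  have hu0 : u ≠ 0 := by rintro rfl; simp at hu
  have hκ : 0 < (4 : ℝ) ^ (-(s / 2 + 1)) := by positivity
  have hκ1 : (4 : ℝ) ^ (-(s / 2 + 1)) ≤ 1 :=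
    Real.rpow_le_one_of_one_le_of_nonpos (by norm_num) (by linarith)
  have hl4 : 4 ≤ lam := by nlinarith
  have n2 : ‖u - -u‖ = 2 := by rw [sub_neg_eq_add, ← two_smul ℝ, norm_smul, hu]; simp
  have q1 : (0 : E) - eB 0 ≠ 0 := by simp [zB, hu0]
  have q2 : (0 : E) - eC 0 ≠ 0 := by simp [zC, hu0]
  have q3 : eB 0 - eC 0 ≠ 0 := by rw [zB, zC, ← norm_ne_zero_iff, n2]; norm_num
  set vC : E → ℝ := fun a => 2 ^ (-s) / 2 - s / 2 * (lam * ‖eC a‖ ^ 2 - 2 * inner ℝ l (eC a)) +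
    s / 2 * (lam * ‖-u‖ ^ 2 - 2 * inner ℝ l (-u)) with hvC
  have cC : ContDiffAt ℝ ω vC 0 := by
    have c1 := nC.2.1.norm_sq ℝ
    have c2 : ContDiffAt ℝ ω (fun a => inner ℝ l (eC a)) 0 := contDiffAt_const.inner ℝ nC.2.1
    rw [hvC]; fun_prop
  have zvC : vC 0 = 2 ^ (-s) / 2 := by simp only [hvC, zC]; ring
  have cB' := nB.2.1.continuousAt
  have cC' := nC.2.1.continuousAt
  have t1 : Tendsto (fun p : E × E × E => p.2.1) (𝓝 0) (𝓝 0) := Continuous.tendsto (by fun_prop) 0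
  have t2 : Tendsto (fun p : E × E × E => p.2.2) (𝓝 0) (𝓝 0) := Continuous.tendsto (by fun_prop) 0
  refine ⟨eB, eC, fun a => hh s a (eB a) (eC a) - (2 - s / 2 * (lam * ‖a‖ ^ 2)) - vC a, vC, nB, nC,
    zB, zC, ?_, cC, ?_, zvC, ?_⟩
  · have c1 := rpow_norm_contDiffAt (-s) (contDiffAt_id.sub nB.2.1) q1
    have c2 := rpow_norm_contDiffAt (-s) (contDiffAt_id.sub nC.2.1) q2
    have c3 := rpow_norm_contDiffAt (-s) (nB.2.1.sub nC.2.1) q3
    have c4 : ContDiffAt ℝ ω (fun a : E => ‖a‖ ^ 2) 0 := (contDiff_norm_sq ℝ).contDiffAt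
    exact (((c1.add c2).add c3).sub
      (contDiffAt_const.sub (contDiffAt_const.mul (contDiffAt_const.mul c4)))).sub cC
  · simp only [zvC, hh, zB, zC, n2]
    simp [hu]; ring
  have w1 : ContinuousAt (fun a => wt (s / 2 + 1) (a - eB a)) 0 :=
    ContinuousAt.comp (f := fun a => a - eB a) (wt_contDiffAt _ q1).continuousAt
      (continuousAt_id.sub cB')
  have w2 : ContinuousAt (fun a => wt (s / 2 + 1) (a - eC a)) 0 :=
    ContinuousAt.comp (f := fun a => a - eC a) (wt_contDiffAt _ q2).continuousAt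
      (continuousAt_id.sub cC')
  have w3 : ContinuousAt (fun a => wt (s / 2 + 1) (eB a - eC a)) 0 :=
    ContinuousAt.comp (f := fun a => eB a - eC a) (wt_contDiffAt _ q3).continuousAt (cB'.sub cC')
  have p1 : ∀ᶠ a in 𝓝 (0 : E),
      0 < lam - wt (s / 2 + 1) (a - eB a) - 2 * wt (s / 2 + 1) (a - eC a) :=
    ((continuousAt_const.sub w1).sub (continuousAt_const.mul w2)).eventually (lt_mem_nhds (by
      simp [wt, zB, zC, hu]; linarith))
  have p2 : ∀ᶠ a in 𝓝 (0 : E),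
      0 < lam - wt (s / 2 + 1) (eB a - eC a) - 2 * wt (s / 2 + 1) (a - eC a) :=
    ((continuousAt_const.sub w3).sub (continuousAt_const.mul w2)).eventually (lt_mem_nhds (by
      simp only [wt, zB, zC, n2, Pi.sub_apply, Pi.mul_apply, show (2 : ℝ) ^ 2 = 4 by norm_num]
      simp only [zero_sub, neg_neg, hu, one_pow, Real.one_rpow]; linarith))
  have r1 : ∀ᶠ a in 𝓝 (0 : E), a - eB a ≠ 0 := (continuousAt_id.sub cB').eventually_ne q1
  have r2 : ∀ᶠ a in 𝓝 (0 : E), a - eC a ≠ 0 := (continuousAt_id.sub cC').eventually_ne q2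
  have r3 : ∀ᶠ a in 𝓝 (0 : E), eB a - eC a ≠ 0 := (cB'.sub cC').eventually_ne q3
  have bB : ContinuousAt (fun p : E × E × E => eB p.2.1) 0 := ContinuousAt.comp cB' t1
  have bC : ContinuousAt (fun p : E × E × E => eC p.2.2) 0 := ContinuousAt.comp cC' t2
  have s1 : ∀ᶠ p : E × E × E in 𝓝 0, p.1 - eB p.2.1 ≠ 0 :=
    (continuousAt_fst.sub bB).eventually_ne q1
  have s2 : ∀ᶠ p : E × E × E in 𝓝 0, p.1 - eC p.2.2 ≠ 0 :=
    (continuousAt_fst.sub bC).eventually_ne q2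
  have s3 : ∀ᶠ p : E × E × E in 𝓝 0, eB p.2.1 - eC p.2.2 ≠ 0 := (bB.sub bC).eventually_ne q3
  filter_upwards [t1.eventually hev, t1.eventually p1, t1.eventually p2, t1.eventually r1,
    t1.eventually r2, t1.eventually r3, s1, s2, s3, t1.eventually nC.eventually,
    t2.eventually nC.eventually] with ⟨a', a, c⟩ g p1 p2 r1 r2 r3 s1 s2 s3 m1 m2
  simp only at *
  have key := key_ineq hs (sub_ne_zero.1 r1) (sub_ne_zero.1 r2) (sub_ne_zero.1 r3)
    (sub_ne_zero.1 s1) (sub_ne_zero.1 s2) (sub_ne_zero.1 s3) g.1 g.2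
  have k1 := mul_nonneg p1.le (sq_nonneg ‖a' - a‖)
  have k2 := mul_nonneg p2.le (sq_nonneg ‖eC c - eC a‖)
  have k3 := mul_nonneg (half_pos hs).le (add_nonneg k1 k2)
  refine ⟨by simp only [hvC]; linarith, fun h => ?_, ?_⟩
  · simp only [hvC] at h
    have k4 := (mul_eq_zero.1 (le_antisymm (by linarith) k3)).resolve_left (half_pos hs).ne'
    have k5 := (mul_eq_zero.1 (le_antisymm (by linarith) k1)).resolve_left p1.ne'
    have k6 := (mul_eq_zero.1 (le_antisymm (by linarith) k2)).resolve_left p2.ne'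
    have k7 : a' = a := by simpa [sub_eq_zero] using k5
    have k8 : eC c = eC a := by simpa [sub_eq_zero] using k6
    exact ⟨k7, k7.trans (eC.injOn m2.1 m1.1 k8).symm⟩
  · rintro ⟨rfl, rfl⟩; ring

/-- squared distances of the five centres -/
def tab : Fin 5 → Fin 5 → ℕ :=
  ![![0, 1, 1, 1, 1], ![1, 0, 4, 2, 2], ![1, 4, 0, 2, 2], ![1, 2, 2, 0, 4], ![1, 2, 2, 4, 0]]

lemma tab_eq {u v : E} (hu : ‖u‖ = 1) (hv : ‖v‖ = 1) (huv : inner ℝ u v = 0) (i j : Fin 5) :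
    ‖(![0, u, -u, v, -v] : Fin 5 → E) i - (![0, u, -u, v, -v] : Fin 5 → E) j‖ ^ 2 = tab i j := by
  have hvu : inner ℝ v u = 0 := by rw [real_inner_comm, huv]
  rw [norm_sub_sq_real]
  fin_cases i <;> fin_cases j <;> simp [tab, hu, hv, huv, hvu] <;> norm_num

lemma tab_pos : ∀ i j : Fin 5, i ≠ j → 1 ≤ tab i j := by decide

lemma tab_lt {t : ℝ} (h0 : 0 < t) (h1 : t < 1) (F : ℕ → ℝ) (F0 : F 0 = 7) (F1 : F 1 = 1)
    (F2 : F 2 = t) (F4 : F 4 = t ^ 2) (i j k : Fin 5) (h : ¬good i j k) :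
    (![2, t ^ 2 / 2, t ^ 2 / 2, t ^ 2 / 2, t ^ 2 / 2] : Fin 5 → ℝ) i +
      (![2, t ^ 2 / 2, t ^ 2 / 2, t ^ 2 / 2, t ^ 2 / 2] : Fin 5 → ℝ) j +
      (![2, t ^ 2 / 2, t ^ 2 / 2, t ^ 2 / 2, t ^ 2 / 2] : Fin 5 → ℝ) k <
      F (tab i j) + F (tab i k) + F (tab j k) := by
  have h2 : t ^ 2 < t := by nlinarith
  have h3 : 0 < t ^ 2 := by positivity
  fin_cases i <;> fin_cases j <;> fin_cases k <;>
    first
    | exact absurd (by decide) h
    | (simp only [tab, Fin.zero_eta, Fin.mk_one, Fin.reduceFinMk, Matrix.cons_val, Fin.isValue,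
        Matrix.cons_val_zero, Matrix.cons_val_one, F0, F1, F2, F4]; linarith)

lemma good_swap₁ : ∀ i j k : Fin 5, good i j k ↔ good j i k := by decide
lemma good_swap₂ : ∀ i j k : Fin 5, good i j k ↔ good i k j := by decide

lemma struct [FiniteDimensional ℝ E] {s : ℝ} (hs : 0 < s) {u₁ u₂ : E} (h₁ : ‖u₁‖ = 1)
    (h₂ : ‖u₂‖ = 1) (h₁₂ : inner ℝ u₁ u₂ = 0) :
    ∃ (e : Fin 5 → OpenPartialHomeomorph E E) (v : Fin 5 → E → ℝ) (r : ℝ), 0 < r ∧
      (∀ a, e 0 a = a) ∧ (∀ i, ∀ a ∈ Metric.ball (0 : E) r, Nice (e i) a) ∧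
      (∀ i, ∀ a ∈ Metric.ball (0 : E) r, ContinuousAt (v i) a ∧ v i a ≤ 3) ∧
      (∀ i j, i ≠ j → ∀ a ∈ Metric.ball (0 : E) r, ∀ b ∈ Metric.ball (0 : E) r,
        1 / 2 ≤ ‖e i a - e j b‖) ∧
      ∀ i j k, ∀ a ∈ Metric.ball (0 : E) r, ∀ b ∈ Metric.ball (0 : E) r,
        ∀ c ∈ Metric.ball (0 : E) r,
        ENNReal.ofReal (v i a) + ENNReal.ofReal (v j b) + ENNReal.ofReal (v k c) ≤
          tripleCost s (e i a, e j b, e k c) ∧
        (ENNReal.ofReal (v i a) + ENNReal.ofReal (v j b) + ENNReal.ofReal (v k c) =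
          tripleCost s (e i a, e j b, e k c) ↔ a = b ∧ a = c ∧ good i j k) := by
  have hκ : 0 < (4 : ℝ) ^ (-(s / 2 + 1)) := by positivity
  set lam : ℝ := 1 / (4 : ℝ) ^ (-(s / 2 + 1)) + 3 with hlam
  have hl : lam * (4 : ℝ) ^ (-(s / 2 + 1)) = 1 + 3 * (4 : ℝ) ^ (-(s / 2 + 1)) := by
    rw [hlam]; field_simp
  obtain ⟨B₁, C₁, b₁, c₁, nB₁, nC₁, zB₁, zC₁, sb₁, sc₁, zb₁, zc₁, ev₁⟩ := pair hs hl h₁
  obtain ⟨B₂, C₂, b₂, c₂, nB₂, nC₂, zB₂, zC₂, sb₂, sc₂, zb₂, zc₂, ev₂⟩ := pair hs hl h₂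
  set e : Fin 5 → OpenPartialHomeomorph E E := ![OpenPartialHomeomorph.refl E, B₁, C₁, B₂, C₂]
    with he
  set v : Fin 5 → E → ℝ := ![fun a => 2 - s / 2 * (lam * ‖a‖ ^ 2), b₁, c₁, b₂, c₂] with hv
  set t : ℝ := √2 ^ (-s) with ht
  have ht0 : 0 < t := by positivity
  have ht1 : t < 1 := Real.rpow_lt_one_of_one_lt_of_neg Real.one_lt_sqrt_two (by linarith)
  have ht2 : t ^ 2 = 2 ^ (-s) := by
    rw [ht, ← Real.rpow_natCast, ← Real.rpow_mul (by positivity), mul_comm,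
      Real.rpow_mul (by positivity)]
    simp
  have nice : ∀ i, Nice (e i) 0 := by
    intro i; fin_cases i
    · exact ⟨mem_univ _, contDiffAt_id, contDiffAt_id⟩
    exacts [nB₁, nC₁, nB₂, nC₂]
  have ez : ∀ i, e i 0 = (![0, u₁, -u₁, u₂, -u₂] : Fin 5 → E) i := by
    intro i; fin_cases i
    exacts [rfl, zB₁, zC₁, zB₂, zC₂]
  have vs : ∀ i, ContDiffAt ℝ ω (v i) 0 := by
    intro i; fin_cases i
    · exact contDiffAt_const.sub (contDiffAt_const.mul (contDiffAt_const.mul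
        (contDiff_norm_sq ℝ).contDiffAt))
    exacts [sb₁, sc₁, sb₂, sc₂]
  have vz : ∀ i, v i 0 = (![2, t ^ 2 / 2, t ^ 2 / 2, t ^ 2 / 2, t ^ 2 / 2] : Fin 5 → ℝ) i := by
    intro i; rw [ht2]; fin_cases i
    · simp [hv]
    exacts [zb₁, zc₁, zb₂, zc₂]
  have vz' : ∀ i, 0 < v i 0 ∧ v i 0 < 3 := by
    have h2 : t ^ 2 < 1 := by nlinarith
    have h3 : 0 < t ^ 2 := by positivity
    intro i; rw [vz]; fin_cases i <;> simp <;> first | linarith | (constructor <;> linarith)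
  have t0 : Tendsto (fun p : E × E × E => p.1) (𝓝 0) (𝓝 0) := Continuous.tendsto (by fun_prop) 0
  have t1 : Tendsto (fun p : E × E × E => p.2.1) (𝓝 0) (𝓝 0) := Continuous.tendsto (by fun_prop) 0
  have t2 : Tendsto (fun p : E × E × E => p.2.2) (𝓝 0) (𝓝 0) := Continuous.tendsto (by fun_prop) 0
  have A1 : ∀ᶠ a in 𝓝 (0 : E), ∀ i, Nice (e i) a ∧ ContinuousAt (v i) a ∧ 0 < v i a ∧ v i a < 3 ∧
      ‖e i a - e i 0‖ < 1 / 4 := by
    rw [eventually_all]
    intro i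
    filter_upwards [(nice i).eventually, (vs i).eventually (by simp),
      (vs i).continuousAt.eventually (lt_mem_nhds (vz' i).1),
      (vs i).continuousAt.eventually (gt_mem_nhds (vz' i).2),
      (nice i).2.1.continuousAt.eventually (Metric.ball_mem_nhds _ (by norm_num : (0 : ℝ) < 1 / 4))]
      with a g1 g2 g3 g4 g5 using ⟨g1, g2.continuousAt, g3, g4, by rwa [← dist_eq_norm]⟩
  have A2 : ∀ᶠ p : E × E × E in 𝓝 0, ∀ i j k, ¬good i j k →
      ENNReal.ofReal (v i p.1) + ENNReal.ofReal (v j p.2.1) + ENNReal.ofReal (v k p.2.2) <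
        tripleCost s (e i p.1, e j p.2.1, e k p.2.2) := by
    simp only [eventually_all]
    intro i j k hg
    have o : ∀ i, Tendsto (fun a => ENNReal.ofReal (v i a)) (𝓝 0) (𝓝 (ENNReal.ofReal (v i 0))) :=
      fun i => ENNReal.tendsto_ofReal (vs i).continuousAt
    have o' : ∀ i, Tendsto (e i) (𝓝 0) (𝓝 (e i 0)) := fun i => (nice i).2.1.continuousAt
    refine Tendsto.eventually_lt ((((o i).comp t0).add ((o j).comp t1)).add ((o k).comp t2))
      (((continuous_tripleCost s).tendsto _).comp (((o' i).comp t0).prodMk_nhds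
        (((o' j).comp t1).prodMk_nhds ((o' k).comp t2)))) ?_
    set F : ℕ → ℝ := fun n => if n = 0 then 7 else √n ^ (-s) with hF
    have F0 : ∀ n, 0 ≤ F n := fun n => by simp only [hF]; split_ifs <;> positivity
    have hT : ∀ i j, ENNReal.ofReal (F (tab i j)) ≤ pairCost s (e i 0) (e j 0) := by
      intro i j
      have : ‖e i 0 - e j 0‖ = √(tab i j) := by
        rw [ez, ez, ← tab_eq h₁ h₂ h₁₂, Real.sqrt_sq (norm_nonneg _)]
      rw [pairCost, this, hF]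
      simp only
      split_ifs with h
      · simp [h, hs]
      · rw [ENNReal.ofReal_rpow_of_pos (Real.sqrt_pos.2 (by positivity))]
    have := tab_lt ht0 ht1 F (by simp [hF]) (by simp [hF]) (by simp [hF, ht]) (by
      rw [ht2]; simp only [hF]
      rw [if_neg (by norm_num), show ((4 : ℕ) : ℝ) = 2 ^ 2 by norm_num, Real.sqrt_sq (by norm_num)])
      i j k hg
    rw [← vz, ← vz, ← vz] at this
    rw [← ENNReal.ofReal_add (vz' i).1.le (vz' j).1.le,
      ← ENNReal.ofReal_add (add_nonneg (vz' i).1.le (vz' j).1.le) (vz' k).1.le]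
    refine lt_of_lt_of_le ((ENNReal.ofReal_lt_ofReal_iff_of_nonneg
      (add_nonneg (add_nonneg (vz' i).1.le (vz' j).1.le) (vz' k).1.le)).2 this) ?_
    rw [ENNReal.ofReal_add (add_nonneg (F0 _) (F0 _)) (F0 _), ENNReal.ofReal_add (F0 _) (F0 _)]
    exact add_le_add (add_le_add (hT i j) (hT i k)) (hT j k)
  obtain ⟨r, hr, hball⟩ := Metric.eventually_nhds_iff_ball.1
    ((t0.eventually A1).and (A2.and (ev₁.and ev₂)))
  have mem : ∀ a ∈ Metric.ball (0 : E) r, ∀ b ∈ Metric.ball (0 : E) r, ∀ c ∈ Metric.ball (0 : E) r,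
      (a, b, c) ∈ Metric.ball (0 : E × E × E) r := fun a ha b hb c hc => by
    simp only [mem_ball_zero_iff, Prod.norm_def, max_lt_iff] at *
    exact ⟨ha, hb, hc⟩
  have B1 := fun a ha => (hball _ (mem a ha a ha a ha)).1
  have sep : ∀ i j, i ≠ j → ∀ a ∈ Metric.ball (0 : E) r, ∀ b ∈ Metric.ball (0 : E) r,
      1 / 2 ≤ ‖e i a - e j b‖ := by
    intro i j hij a ha b hb
    have g1 := (B1 a ha i).2.2.2.2
    have g2 := (B1 b hb j).2.2.2.2
    have g3 : 1 ≤ ‖e i 0 - e j 0‖ := by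
      have := tab_eq h₁ h₂ h₁₂ i j
      rw [← ez, ← ez] at this
      have g : (1 : ℝ) ≤ tab i j := by exact_mod_cast tab_pos i j hij
      nlinarith [norm_nonneg (e i 0 - e j 0)]
    have g4 := dist_triangle4 (e i 0) (e i a) (e j b) (e j 0)
    simp only [dist_eq_norm] at g1 g2 g4
    rw [norm_sub_rev] at g1
    linarith
  have ne : ∀ i j, i ≠ j → ∀ a ∈ Metric.ball (0 : E) r, ∀ b ∈ Metric.ball (0 : E) r,
      e i a ≠ e j b := fun i j hij a ha b hb h => by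
    have := sep i j hij a ha b hb
    rw [h, sub_self, norm_zero] at this
    norm_num at this
  refine ⟨e, v, r, hr, fun a => rfl, fun i a ha => (B1 a ha i).1,
    fun i a ha => ⟨(B1 a ha i).2.1, (B1 a ha i).2.2.2.1.le⟩, sep, ?_⟩
  set Q : Fin 5 → Fin 5 → Fin 5 → Prop := fun i j k => ∀ a ∈ Metric.ball (0 : E) r,
    ∀ b ∈ Metric.ball (0 : E) r, ∀ c ∈ Metric.ball (0 : E) r,
        ENNReal.ofReal (v i a) + ENNReal.ofReal (v j b) + ENNReal.ofReal (v k c) ≤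
          tripleCost s (e i a, e j b, e k c) ∧
        (ENNReal.ofReal (v i a) + ENNReal.ofReal (v j b) + ENNReal.ofReal (v k c) =
          tripleCost s (e i a, e j b, e k c) ↔ a = b ∧ a = c ∧ good i j k) with hQ
  change ∀ i j k, Q i j k
  have S1 : ∀ {i j k}, Q i j k → Q j i k := by
    intro i j k h a ha b hb c hc
    have := h b hb a ha c hc
    have e1 : tripleCost s (e j a, e i b, e k c) = tripleCost s (e i b, e j a, e k c) := by
      simp only [tripleCost, pairCost_comm s (e j a) (e i b)]; ring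
    rw [e1, add_comm (ENNReal.ofReal (v j a)), this.2, good_swap₁ j i k]
    exact ⟨this.1, by constructor <;> rintro ⟨rfl, rfl, h⟩ <;> exact ⟨rfl, rfl, h⟩⟩
  have S2 : ∀ {i j k}, Q i j k → Q i k j := by
    intro i j k h a ha b hb c hc
    have := h a ha c hc b hb
    have e1 : tripleCost s (e i a, e k b, e j c) = tripleCost s (e i a, e j c, e k b) := by
      simp only [tripleCost, pairCost_comm s (e k b) (e j c)]; ring
    rw [e1, add_right_comm, this.2, good_swap₂ i k j]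
    exact ⟨this.1, by constructor <;> rintro ⟨rfl, rfl, h⟩ <;> exact ⟨rfl, rfl, h⟩⟩
  have base : ∀ j k, good 0 j k → 0 ≠ j → 0 ≠ k → j ≠ k →
      (∀ a ∈ Metric.ball (0 : E) r, ∀ b ∈ Metric.ball (0 : E) r, ∀ c ∈ Metric.ball (0 : E) r,
        v 0 a + v j b + v k c ≤ hh s (e 0 a) (e j b) (e k c) ∧
        (v 0 a + v j b + v k c = hh s (e 0 a) (e j b) (e k c) ↔ a = b ∧ a = c)) → Q 0 j k := by
    intro j k hg n1 n2 n3 h a ha b hb c hc
    have p1 := (B1 a ha 0).2.2.1.le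
    have p2 := (B1 b hb j).2.2.1.le
    have p3 := (B1 c hc k).2.2.1.le
    obtain ⟨g1, g2⟩ := h a ha b hb c hc
    rw [tripleCost_eq s (ne _ _ n1 a ha b hb) (ne _ _ n2 a ha c hc) (ne _ _ n3 b hb c hc),
      ← ENNReal.ofReal_add p1 p2, ← ENNReal.ofReal_add (add_nonneg p1 p2) p3,
      ENNReal.ofReal_eq_ofReal_iff (by positivity) (le_trans (by positivity) g1), g2]
    exact ⟨ENNReal.ofReal_le_ofReal g1, by simp [hg]⟩
  have Q1 : Q 0 1 2 := base 1 2 (by decide) (by decide) (by decide) (by decide)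
    fun a ha b hb c hc => (hball _ (mem a ha b hb c hc)).2.2.1
  have Q2 : Q 0 3 4 := base 3 4 (by decide) (by decide) (by decide) (by decide)
    fun a ha b hb c hc => (hball _ (mem a ha b hb c hc)).2.2.2
  intro i j k
  by_cases hg : good i j k
  · simp only [good, List.mem_cons, Prod.mk.injEq, List.not_mem_nil, or_false] at hg
    rcases hg with h | h | h | h | h | h | h | h | h | h | h | h <;> obtain ⟨rfl, rfl, rfl⟩ := h
    exacts [Q1, S2 Q1, S1 Q1, S2 (S1 Q1), S1 (S2 Q1), S1 (S2 (S1 Q1)),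
      Q2, S2 Q2, S1 Q2, S2 (S1 Q2), S1 (S2 Q2), S1 (S2 (S1 Q2))]
  · intro a ha b hb c hc
    have := (hball _ (mem a ha b hb c hc)).2.1 i j k hg
    exact ⟨this.le, by simp [this.ne, hg]⟩

end Crest.Agent.H0175
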